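import Vale.Agent.P126.Defs

/-!
Interfaces for the disproof of the entropy duality conjecture: a finite class of functions whose
sup-norm separation is exponentially larger than what its Rademacher averages allow.
-/

namespace Vale.Agent.P126.Neg

open scoped Classical Pointwise
open Finset

/-- The sample space: functions from classes to `Fin P`. -/
abbrev Omega (Q P : ℕ) : Type := Fin Q → Fin P

/-- The cylinder of the functions vanishing on `A`. -/
noncomputable def cyl {Q P : ℕ} (A : Finset (Fin Q)) : Finset (Omega Q P) :=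
  univ.filter fun w => ∀ i ∈ A, (w i : ℕ) = 0

/-- `Z` has density at least `c (card T)` in the cylinder of `B ∪ T`. -/
def DenseAt {Q P : ℕ} (Z : Finset (Omega Q P)) (B : Finset (Fin Q)) (c : ℕ → ℝ)
    (T : Finset (Fin Q)) : Prop :=
  c T.card * ((cyl (P := P) (B ∪ T)).card : ℝ) ≤ ((cyl (B ∪ T) ∩ Z).card : ℝ)

/-- The minimal sets disjoint from `B`, of size at most `M`, on which `Z` is dense. -/
noncomputable def minDense {Q P : ℕ} (Z : Finset (Omega Q P)) (B : Finset (Fin Q)) (c : ℕ → ℝ)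
    (M : ℕ) : Finset (Finset (Fin Q)) :=
  univ.filter fun F => F.card ≤ M ∧ Disjoint F B ∧ DenseAt Z B c F ∧
    ∀ G, G ⊂ F → ¬ DenseAt Z B c G

/-- The degree bound on a family of edges. -/
def DegOK {Q : ℕ} (P : ℕ) (S : ℝ) (M : ℕ) (L : Finset (Finset (Fin Q))) : Prop :=
  ∀ (U : Finset (Fin Q)) (r : ℕ), r ≤ M → U.card ≤ r →
    ((L.filter fun F => F.card = r ∧ U ⊆ F).card : ℝ) ≤ S * (P : ℝ) ^ (r - U.card)

/-- Minimal dense sets form a family of bounded degree. -/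
def MinDenseStmt : Prop :=
  ∀ (Q P M : ℕ), 0 < P → ∀ (Z : Finset (Omega Q P)) (B : Finset (Fin Q)) (c : ℕ → ℝ) (g : ℝ),
    0 < g → g ≤ 1 → (∀ t t', t < t' → t' ≤ M → c t + g ≤ c t') →
      DegOK P ((2 ^ M / g ^ 2) ^ M) M (minDense Z B c M)

/-- A tournament in which every set of at most `lam` vertices has a common dominator. -/
def TournStmt : Prop :=
  ∀ lam lo : ℕ, ∃ Q : ℕ, lo ≤ Q ∧ ∃ T : Fin Q → Fin Q → Prop,
    (∀ i j, T i j → ¬ T j i) ∧ (∀ i j, i ≠ j → T i j ∨ T j i) ∧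
      ∀ A : Finset (Fin Q), A.card ≤ lam → ∃ i, ∀ a ∈ A, T i a

/-- Reed-Solomon codes. -/
def CodeStmt : Prop :=
  ∀ (α : Type) [Fintype α] (q Kd : ℕ) [Fact q.Prime], Fintype.card α ≤ q → Kd ≤ Fintype.card α →
    ∃ C : Finset (α → ZMod q), C.card = q ^ Kd ∧
      ∀ c ∈ C, ∀ c' ∈ C, c ≠ c' → (univ.filter fun w => c w = c' w).card < Kd

/-- Every projection to a set `I` of positions has point masses at most `θ ^ (-card I)`. -/
def Spread {Q n : ℕ} (θ : ℝ) (μ : (Fin n → Fin Q) → ℝ) : Prop :=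
  (∀ a, 0 ≤ μ a) ∧ ∀ (I : Finset (Fin n)) (v : Fin n → Fin Q),
    ∑ a ∈ univ.filter (fun a => ∀ p ∈ I, a p = v p), μ a ≤ (1 / θ) ^ I.card

/-- No edge of `L` is contained in `U`. -/
def Free {Q : ℕ} (L : Finset (Finset (Fin Q))) (U : Finset (Fin Q)) : Prop :=
  ∀ F ∈ L, ¬ F ⊆ U

/-- The set of values of a tuple. -/
noncomputable def img {Q n : ℕ} (a : Fin n → Fin Q) : Finset (Fin Q) := univ.image a

/-- Inside a family with spread tuples that avoid their own lists, a proportion of the pairs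
collide on a common part and together avoid both lists. -/
def PairsStmt : Prop :=
  ∀ M : ℕ, ∃ C E : ℕ, 1 ≤ C ∧ ∀ (Q P h n : ℕ) (θ ω S : ℝ), 0 < P → 0 < h → 0 < θ → 2 * n ≤ M →
    1 ≤ ω → (P : ℝ) ≤ ω * θ → 1 ≤ S →
    ∀ (L : Fin h → Finset (Finset (Fin Q))) (μ : Fin h → (Fin n → Fin Q) → ℝ),
      (∀ j, DegOK P S M (L j) ∧ ∀ F ∈ L j, F.card ≤ M) →
      (∀ j, Spread θ (μ j) ∧ ∑ a, μ j a = 1 ∧ ∀ a, μ j a ≠ 0 → Free (L j) (img a)) →
      ∃ I : Finset (Fin n),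
        (1 / ((C : ℝ) * S * ω) ^ E) * (h : ℝ) ^ 2 ≤
          θ ^ I.card * ∑ j, ∑ k, ∑ a, ∑ b ∈ univ.filter (fun b =>
            (∀ p ∈ I, b p = a p) ∧ Free (L j) (img a ∪ img b) ∧ Free (L k) (img a ∪ img b)),
              μ j a * μ k b

/-- A few samples locate the points of large and of small probability. -/
def SampleStmt : Prop :=
  ∀ (α : Type) [Fintype α] (K0 : Finset α) (κ : α → α) (b r : ℕ) (G : α → Fin b → Prop)
    (π : α → ℝ) (ρ : ℝ), (∀ a, κ a ∈ K0) → (∀ a k, G (κ a) k ↔ G a k) → (∀ a, 0 ≤ π a) →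
    ∑ a, π a = 1 → 0 < ρ → 0 < r →
    ∃ s : Fin r → α, (∀ t, s t ∈ K0) ∧
      ((univ.filter fun k : Fin b => ρ ≤ ∑ a ∈ univ.filter (fun a => G a k), π a ∧
          ((univ.filter fun t => G (s t) k).card : ℝ) < ρ / 2 * r).card : ℝ) +
      ((univ.filter fun k : Fin b => ∑ a ∈ univ.filter (fun a => G a k), π a ≤ ρ / 4 ∧
          ρ / 2 * r ≤ ((univ.filter fun t => G (s t) k).card : ℝ)).card : ℝ)
        ≤ 32 * b / (r * ρ ^ 2)

/-- A sign as a real number. -/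
def sgn (s : Bool) : ℝ := if s then 1 else -1

/-- The expected largest signed sum over a family of sets. -/
def RadStmt : Prop :=
  ∀ (d : ℕ) (fam : Finset (Finset (Fin d))) (t : ℝ) (pick : (Fin d → Bool) → Finset (Fin d)),
    0 < t → (∀ σ, pick σ ∈ fam) →
    ∑ σ : Fin d → Bool, |∑ k ∈ pick σ, sgn (σ k)| ≤
      2 ^ d * (Real.log (2 * (fam.card : ℝ)) / t + d * t / 2)

/-- Small Rademacher averages make every point of the cross-polytope a short signed average. -/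
def ApproxPointStmt : Prop :=
  ∀ (X ι : Type) [Fintype X] [Nonempty X] [Fintype ι] (F : ι → X → ℝ) (d : ℕ) (ε : ℝ), 0 < d →
    (∀ (x : Fin d → X) (pick : (Fin d → Bool) → ι),
      ∑ σ : Fin d → Bool, |∑ k, sgn (σ k) * F (pick σ) (x k)| ≤ 2 ^ d * (ε * d)) →
    ∀ y : X → ℝ, ∑ x, |y x| ≤ 1 → ∃ s : Fin d → Bool × X, ∀ i : ι,
      |∑ x, y x * F i x - (∑ k, sgn (s k).1 * F i (s k).2) / d| ≤ 2 * ε

/-- Finite classes of `[0,1]`-valued functions, fully separated in the sup norm, whose Rademacher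
averages are small at sample sizes much below the logarithm of their number. -/
def ClassStmt : Prop :=
  ∀ ε b : ℝ, 0 < ε → 0 < b → ∃ (X ι : Type) (_ : Fintype X) (_ : Nonempty X) (_ : Fintype ι)
    (F : ι → X → ℝ) (d : ℕ), 0 < d ∧ (∀ i x, 0 ≤ F i x ∧ F i x ≤ 1) ∧
      (∀ i i', i ≠ i' → ∃ x, |F i x - F i' x| = 1) ∧
      (∀ (x : Fin d → X) (pick : (Fin d → Bool) → ι),
        ∑ σ : Fin d → Bool, |∑ k, sgn (σ k) * F (pick σ) (x k)| ≤ 2 ^ d * (ε * d)) ∧
      b * ((d : ℝ) * Real.log (2 * (Fintype.card X : ℝ))) < Real.log (Fintype.card ι)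

/-- Both inequalities of the duality conjecture fail, whatever the constants. -/
def DualityFails : Prop :=
  (¬ ∃ a b : ℝ, 1 ≤ a ∧ 1 ≤ b ∧ ∀ (n : ℕ), 1 ≤ n → ∀ K L : Set (EuclideanSpace ℝ (Fin n)),
    IsBody K → IsBody L →
      Real.log (covNum K L) ≤ b * Real.log (covNum (polar L) (a⁻¹ • polar K))) ∧
  (¬ ∃ a b : ℝ, 1 ≤ a ∧ 1 ≤ b ∧ ∀ (n : ℕ), 1 ≤ n → ∀ K L : Set (EuclideanSpace ℝ (Fin n)),
    IsBody K → IsBody L →
      Real.log (covNum (polar L) (a • polar K)) ≤ b * Real.log (covNum K L))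

end Vale.Agent.P126.Neg
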