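import Vale.Agent.P126.Basic
import Vale.Agent.P126.Neg.Defs

/-! Bodies with large entropy and small dual entropy from a separated class of small averages. -/

namespace Vale.Agent.P126.Neg

open scoped Classical Pointwise RealInnerProductSpace
open Finset

variable {n : ℕ}

/-- The cube of half side `2/5`. -/
def cube (n : ℕ) : Set (EuclideanSpace ℝ (Fin n)) := {y | ∀ j, |y j| ≤ 2 / 5}

/-- A large ball cut by the slabs of the vectors `v`. -/
def slabs {ι : Type} (v : ι → EuclideanSpace ℝ (Fin n)) (Rb : ℝ) :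
    Set (EuclideanSpace ℝ (Fin n)) := {y | ‖y‖ ≤ Rb ∧ ∀ i, |⟪v i, y⟫| ≤ 1}

theorem abs_coord_le (y : EuclideanSpace ℝ (Fin n)) (j : Fin n) : |y j| ≤ ‖y‖ := by
  simpa [Real.norm_eq_abs] using PiLp.norm_apply_le y j

theorem norm_le_sum_abs (y : EuclideanSpace ℝ (Fin n)) : ‖y‖ ≤ ∑ j, |y j| := by
  rw [EuclideanSpace.norm_eq]
  refine (Real.sqrt_le_sqrt (y := (∑ j, |y j|) ^ 2) ?_).trans
    (Real.sqrt_sq (sum_nonneg fun j _ => abs_nonneg _)).le
  simpa [Real.norm_eq_abs] using
    sum_sq_le_sq_sum_of_nonneg (s := (univ : Finset (Fin n))) fun j _ => abs_nonneg (y j)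

theorem isBody_cube (n : ℕ) : IsBody (cube n) := by
  refine ⟨?_, ?_, ⟨0, mem_interior.2 ⟨Metric.ball 0 (2 / 5), fun y hy j => ?_,
    Metric.isOpen_ball, Metric.mem_ball_self (by norm_num)⟩⟩, fun y hy j => ?_⟩
  · intro y hy y' hy' a b ha hb hab j
    simp only [PiLp.add_apply, PiLp.smul_apply, smul_eq_mul]
    refine (abs_add_le _ _).trans ?_
    rw [abs_mul, abs_mul, abs_of_nonneg ha, abs_of_nonneg hb]
    calc a * |y j| + b * |y' j| ≤ a * (2 / 5) + b * (2 / 5) :=
          add_le_add (mul_le_mul_of_nonneg_left (hy j) ha) (mul_le_mul_of_nonneg_left (hy' j) hb)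
      _ = 2 / 5 := by rw [← add_mul, hab, one_mul]
  · refine Metric.isCompact_of_isClosed_isBounded ?_ ?_
    · have : cube n = ⋂ j, {y | |y j| ≤ 2 / 5} := by ext y; simp [cube]
      rw [this]
      exact isClosed_iInter fun j => isClosed_le
        ((PiLp.continuous_apply 2 (fun _ : Fin n => ℝ) j).abs) continuous_const
    · refine isBounded_iff_forall_norm_le.2 ⟨∑ _j : Fin n, (2 / 5 : ℝ), fun y hy => ?_⟩
      exact (norm_le_sum_abs y).trans (sum_le_sum fun j _ => hy j)
  · rw [Metric.mem_ball, dist_zero_right] at hy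
    exact (abs_coord_le y j).trans hy.le
  · simpa using hy j

theorem isBody_slabs {ι : Type} [Fintype ι] (v : ι → EuclideanSpace ℝ (Fin n)) {Rb : ℝ}
    (hRb : 0 < Rb) : IsBody (slabs v Rb) := by
  refine ⟨?_, ?_, ⟨0, mem_interior.2 ⟨Metric.ball 0 (min Rb (1 / (∑ i, ‖v i‖ + 1))),
    fun y hy => ?_, Metric.isOpen_ball, Metric.mem_ball_self ?_⟩⟩, fun y hy => ?_⟩
  · intro y hy y' hy' a b ha hb hab
    refine ⟨?_, fun i => ?_⟩
    · refine (norm_add_le _ _).trans ?_
      rw [norm_smul, norm_smul, Real.norm_of_nonneg ha, Real.norm_of_nonneg hb]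
      calc a * ‖y‖ + b * ‖y'‖ ≤ a * Rb + b * Rb :=
            add_le_add (mul_le_mul_of_nonneg_left hy.1 ha) (mul_le_mul_of_nonneg_left hy'.1 hb)
        _ = Rb := by rw [← add_mul, hab, one_mul]
    · rw [inner_add_right, real_inner_smul_right, real_inner_smul_right]
      refine (abs_add_le _ _).trans ?_
      rw [abs_mul, abs_mul, abs_of_nonneg ha, abs_of_nonneg hb]
      calc a * |⟪v i, y⟫| + b * |⟪v i, y'⟫| ≤ a * 1 + b * 1 :=
            add_le_add (mul_le_mul_of_nonneg_left (hy.2 i) ha)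
              (mul_le_mul_of_nonneg_left (hy'.2 i) hb)
        _ = 1 := by rw [mul_one, mul_one, hab]
  · refine Metric.isCompact_of_isClosed_isBounded ?_ ?_
    · have : slabs v Rb = {y | ‖y‖ ≤ Rb} ∩ ⋂ i, {y | |⟪v i, y⟫| ≤ 1} := by ext y; simp [slabs]
      rw [this]
      exact (isClosed_le continuous_norm continuous_const).inter (isClosed_iInter fun i =>
        isClosed_le (continuous_const.inner continuous_id).abs continuous_const)
    · exact isBounded_iff_forall_norm_le.2 ⟨Rb, fun y hy => hy.1⟩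
  · rw [Metric.mem_ball, dist_zero_right, lt_min_iff] at hy
    refine ⟨hy.1.le, fun i => (abs_real_inner_le_norm _ _).trans ?_⟩
    have h0 : 0 < ∑ i, ‖v i‖ + 1 :=
      add_pos_of_nonneg_of_pos (sum_nonneg fun i _ => norm_nonneg _) one_pos
    have hi : ‖v i‖ ≤ ∑ i, ‖v i‖ + 1 := by
      linarith [single_le_sum (f := fun i => ‖v i‖) (fun i _ => norm_nonneg _) (mem_univ i)]
    calc ‖v i‖ * ‖y‖ ≤ (∑ i, ‖v i‖ + 1) * (1 / (∑ i, ‖v i‖ + 1)) :=
          mul_le_mul hi hy.2.le (norm_nonneg _) h0.le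
      _ = 1 := by field_simp
  · exact lt_min hRb (one_div_pos.2
      (add_pos_of_nonneg_of_pos (sum_nonneg fun i _ => norm_nonneg _) one_pos))
  · exact ⟨by rw [norm_neg]; exact hy.1, fun i => by rw [inner_neg_right, abs_neg]; exact hy.2 i⟩

theorem sum_abs_polar_cube {z : EuclideanSpace ℝ (Fin n)} (hz : z ∈ polar (cube n)) :
    ∑ j, |z j| ≤ 5 / 2 := by
  have h := hz (WithLp.toLp 2 fun j => if 0 ≤ z j then (2 / 5 : ℝ) else -(2 / 5)) (fun j => by
    dsimp only
    split_ifs <;> norm_num)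
  rw [PiLp.inner_apply] at h
  have h2 : ∑ j, (2 / 5 : ℝ) * |z j| ≤ 1 := by
    refine le_of_eq_of_le (sum_congr rfl fun j _ => ?_) h
    simp only [RCLike.inner_apply, conj_trivial]
    split_ifs with hj
    · rw [abs_of_nonneg hj, mul_comm]
    · rw [abs_of_neg (not_le.1 hj)]; ring
  rw [← mul_sum] at h2
  linarith

theorem abs_sgn_one (s : Bool) : |sgn s| = 1 := by cases s <;> simp [sgn]

/-- One pair with a large covering number and a small dual one. -/
theorem exists_pair (hC : ClassStmt) (hA : ApproxPointStmt) {a b : ℝ} (ha : 0 < a) (hb : 0 < b) :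
    ∃ n : ℕ, 1 ≤ n ∧ ∃ K L : Set (EuclideanSpace ℝ (Fin n)), IsBody K ∧ IsBody L ∧
      b * Real.log (covNum (polar L) (a⁻¹ • polar K)) < Real.log (covNum K L) := by
  obtain ⟨X, ι, iX, iXn, iι, F, d, hd, -, hsep, hrad, hlog⟩ := hC (1 / (5 * a)) b (by positivity) hb
  set n := Fintype.card X with hn
  set e := Fintype.equivFin X
  set v : ι → EuclideanSpace ℝ (Fin n) := fun i => WithLp.toLp 2 fun j => F i (e.symm j) with hv
  have hRb : (0 : ℝ) < 5 * a := by positivity
  have hKp := isBody_slabs v hRb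
  have hK := hKp.isBody_polar
  have hL := isBody_cube n
  refine ⟨n, Fintype.card_pos, polar (slabs v (5 * a)), cube n, hK, hL, ?_⟩
  rw [hKp.polar_polar]
  have hup : Fintype.card ι ≤ covNum (polar (slabs v (5 * a))) (cube n) := by
    obtain ⟨t, ht, hcov⟩ := exists_covers_card hK.2.1 hL
    have hvK : ∀ i, v i ∈ polar (slabs v (5 * a)) := fun i y hy => by
      rw [real_inner_comm]; exact le_of_abs_le (hy.2 i)
    choose g hg hgv using fun i => hcov (v i) (hvK i)
    rw [← ht, ← card_univ]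
    refine card_le_card_of_injOn g (fun i _ => hg i) fun i _ i' _ he => ?_
    by_contra hne
    obtain ⟨x, hx⟩ := hsep i i' hne
    have h1 := hgv i (e x)
    have h2 := hgv i' (e x)
    rw [he] at h1
    simp only [hv, PiLp.sub_apply, Equiv.symm_apply_apply] at h1 h2
    have := abs_sub (F i x - g i' (e x)) (F i' x - g i' (e x))
    rw [sub_sub_sub_cancel_right, hx] at this
    linarith
  have hdown : covNum (polar (cube n)) (a⁻¹ • slabs v (5 * a)) ≤ (2 * n) ^ d := by
    let cs : (Fin d → Bool × X) → EuclideanSpace ℝ (Fin n) := fun s => WithLp.toLp 2 fun j =>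
      5 / 2 * ((∑ k, if (s k).2 = e.symm j then sgn (s k).1 else 0) / d)
    refine (covNum_le (t := univ.image cs) ?_).trans (card_image_le.trans (le_of_eq ?_))
    swap
    · simp [Fintype.card_prod, hn]
    intro z hz
    have hz1 := sum_abs_polar_cube hz
    obtain ⟨s, hs⟩ := hA X ι F d (1 / (5 * a)) hd hrad (fun x => 2 / 5 * z (e x)) (by
      simp only [abs_mul, abs_of_pos (by norm_num : (0 : ℝ) < 2 / 5)]
      rw [← mul_sum, e.sum_comp fun j => |z j|]
      linarith)
    refine ⟨cs s, mem_image_of_mem _ (mem_univ s), ?_⟩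
    rw [Set.mem_inv_smul_set_iff₀ ha.ne']
    refine ⟨?_, fun i => ?_⟩
    · have hd0 : (0 : ℝ) < d := by exact_mod_cast hd
      have hc : ∑ j, |cs s j| ≤ 5 / 2 := by
        calc ∑ j, |cs s j| ≤ ∑ j, 5 / 2 * ((∑ k, if (s k).2 = e.symm j then (1 : ℝ) else 0) / d) :=
              sum_le_sum fun j _ => by
                simp only [cs]
                rw [abs_mul, abs_of_pos (by norm_num : (0 : ℝ) < 5 / 2), abs_div,
                  abs_of_pos hd0]
                refine mul_le_mul_of_nonneg_left (div_le_div_of_nonneg_right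
                  ((abs_sum_le_sum_abs _ _).trans (sum_le_sum fun k _ => ?_)) hd0.le) (by norm_num)
                split_ifs <;> simp [abs_sgn_one]
          _ = 5 / 2 := by
                rw [← mul_sum, ← sum_div, sum_comm]
                simp only [Equiv.eq_symm_apply, sum_ite_eq, mem_univ, if_true, sum_const, card_univ,
                  Fintype.card_fin, nsmul_eq_mul, mul_one]
                rw [div_self hd0.ne', mul_one]
      rw [norm_smul, Real.norm_of_nonneg ha.le]
      have h5 : ‖z - cs s‖ ≤ 5 := by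
        refine (norm_sub_le _ _).trans ?_
        linarith [norm_le_sum_abs z, norm_le_sum_abs (cs s)]
      calc a * ‖z - cs s‖ ≤ a * 5 := mul_le_mul_of_nonneg_left h5 ha.le
        _ = 5 * a := by ring
    · rw [real_inner_smul_right, abs_mul, abs_of_pos ha, inner_sub_right]
      have e1 : ⟪v i, z⟫ = ∑ x, z (e x) * F i x := by
        rw [PiLp.inner_apply, ← e.sum_comp]
        refine sum_congr rfl fun x _ => ?_
        simp [hv]
      have e2 : ⟪v i, cs s⟫ = 5 / 2 * ((∑ k, sgn (s k).1 * F i (s k).2) / d) := by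
        rw [PiLp.inner_apply]
        simp only [RCLike.inner_apply, conj_trivial, hv, cs, sum_div, mul_sum, sum_mul]
        rw [sum_comm]
        refine sum_congr rfl fun k _ => ?_
        rw [sum_eq_single (e (s k).2)]
        · simp only [Equiv.symm_apply_apply, if_true]
          ring
        · intro j _ hj
          rw [if_neg fun h => hj (by rw [h, Equiv.apply_symm_apply])]
          ring
        · simp
      have h := hs i
      rw [show ∑ x, 2 / 5 * z (e x) * F i x = 2 / 5 * ⟪v i, z⟫ by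
        rw [e1, mul_sum]; exact sum_congr rfl fun x _ => by ring] at h
      rw [e2]
      rw [abs_le] at h
      have hh : |⟪v i, z⟫ - 5 / 2 * ((∑ k, sgn (s k).1 * F i (s k).2) / d)| ≤ 1 / a := by
        rw [abs_le]
        have : 5 * (1 / (5 * a)) = 1 / a := by field_simp
        constructor <;> linarith [h.1, h.2]
      calc a * |⟪v i, z⟫ - 5 / 2 * ((∑ k, sgn (s k).1 * F i (s k).2) / d)| ≤ a * (1 / a) :=
            mul_le_mul_of_nonneg_left hh ha.le
        _ = 1 := by field_simp
  have hn1 : (1 : ℝ) ≤ n := by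
    have : 1 ≤ n := Fintype.card_pos
    exact_mod_cast this
  have hpos : 0 ≤ (d : ℝ) * Real.log (2 * (n : ℝ)) :=
    mul_nonneg (Nat.cast_nonneg _) (Real.log_nonneg (by linarith))
  have hsmall : Real.log (covNum (polar (cube n)) (a⁻¹ • slabs v (5 * a)) : ℕ) ≤
      d * Real.log (2 * (n : ℝ)) := by
    rcases Nat.eq_zero_or_pos (covNum (polar (cube n)) (a⁻¹ • slabs v (5 * a))) with h0 | h0
    · simpa [h0] using hpos
    · refine (Real.log_le_log (by exact_mod_cast h0)
        (by exact_mod_cast hdown : _ ≤ (2 * (n : ℝ)) ^ d)).trans ?_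
      rw [Real.log_pow]
  have hι : (0 : ℝ) < (Fintype.card ι : ℕ) := by
    rcases Nat.eq_zero_or_pos (Fintype.card ι) with h0 | h0
    · rw [h0, Nat.cast_zero, Real.log_zero] at hlog
      nlinarith
    · exact_mod_cast h0
  calc b * Real.log (covNum (polar (cube n)) (a⁻¹ • slabs v (5 * a)) : ℕ)
      ≤ b * (d * Real.log (2 * (n : ℝ))) := mul_le_mul_of_nonneg_left hsmall hb.le
    _ < Real.log (Fintype.card ι) := hlog
    _ ≤ _ := Real.log_le_log hι (by exact_mod_cast hup)

/-- One pair with a small covering number and a large dual one. -/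
theorem exists_pair_rev (hC : ClassStmt) (hA : ApproxPointStmt) {a b : ℝ} (ha : 0 < a)
    (hb : 0 < b) :
    ∃ n : ℕ, 1 ≤ n ∧ ∃ K L : Set (EuclideanSpace ℝ (Fin n)), IsBody K ∧ IsBody L ∧
      b * Real.log (covNum K L) < Real.log (covNum (polar L) (a • polar K)) := by
  obtain ⟨n, hn, K, L, hK, hL, h⟩ := exists_pair hC hA ha hb
  refine ⟨n, hn, polar L, a⁻¹ • polar K, hL.isBody_polar,
    hK.isBody_polar.smul (inv_ne_zero ha.ne'), ?_⟩
  rw [polar_smul (inv_ne_zero ha.ne'), hK.polar_polar, hL.polar_polar, inv_inv,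
    covNum_smul hK.2.1 hL ha.ne']
  exact h

/-- Both inequalities fail. -/
theorem duality_fails (hC : ClassStmt) (hA : ApproxPointStmt) : DualityFails := by
  refine ⟨?_, ?_⟩
  · rintro ⟨a, b, ha, hb, h⟩
    obtain ⟨n, hn, K, L, hK, hL, hlt⟩ :=
      exists_pair hC hA (zero_lt_one.trans_le ha) (zero_lt_one.trans_le hb)
    exact absurd (h n hn K L hK hL) (not_le.2 hlt)
  · rintro ⟨a, b, ha, hb, h⟩
    obtain ⟨n, hn, K, L, hK, hL, hlt⟩ :=
      exists_pair_rev hC hA (zero_lt_one.trans_le ha) (zero_lt_one.trans_le hb)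
    exact absurd (h n hn K L hK hL) (not_le.2 hlt)

end Vale.Agent.P126.Neg
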