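import Vale.Agent.P126.Neg.Defs

/-! Cardinalities of cylinders. -/

namespace Vale.Agent.P126.Neg

open scoped Classical
open Finset

variable {Q P : ℕ}

theorem mem_cyl {A : Finset (Fin Q)} {w : Omega Q P} :
    w ∈ cyl A ↔ ∀ i ∈ A, (w i : ℕ) = 0 := by simp [cyl]

theorem cyl_anti {A B : Finset (Fin Q)} (h : A ⊆ B) : cyl (P := P) B ⊆ cyl A := fun w hw =>
  mem_cyl.2 fun i hi => mem_cyl.1 hw i (h hi)

theorem cyl_union (A B : Finset (Fin Q)) : cyl (P := P) (A ∪ B) = cyl A ∩ cyl B := by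
  ext w; simp [mem_cyl, or_imp, forall_and]

theorem cyl_eq_pi (hP : 0 < P) (A : Finset (Fin Q)) :
    cyl (P := P) A = Fintype.piFinset fun i => if i ∈ A then {(⟨0, hP⟩ : Fin P)} else univ := by
  ext w
  simp only [mem_cyl, Fintype.mem_piFinset]
  refine ⟨fun h i => ?_, fun h i hi => ?_⟩
  · by_cases hi : i ∈ A
    · simp [hi, Fin.ext_iff, h i hi]
    · simp [hi]
  · have := h i
    simp only [if_pos hi, mem_singleton] at this
    simp [this]

theorem cyl_card (hP : 0 < P) (A : Finset (Fin Q)) :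
    (cyl (P := P) A).card = P ^ (Q - A.card) := by
  rw [cyl_eq_pi hP, Fintype.card_piFinset]
  simp only [apply_ite Finset.card, card_singleton, card_univ, Fintype.card_fin]
  rw [prod_ite]
  simp [filter_not, card_sdiff]

theorem card_le_Q (A : Finset (Fin Q)) : A.card ≤ Q := by simpa using A.card_le_univ

theorem cyl_card_mul (hP : 0 < P) (A : Finset (Fin Q)) :
    (cyl (P := P) A).card * P ^ A.card = P ^ Q := by
  rw [cyl_card hP, ← pow_add, Nat.sub_add_cancel (card_le_Q A)]

theorem cyl_card_pos (hP : 0 < P) (A : Finset (Fin Q)) : 0 < (cyl (P := P) A).card := by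
  rw [cyl_card hP]; positivity

theorem cyl_card_le_mul (hP : 0 < P) {A B : Finset (Fin Q)} {t : ℕ}
    (ht : B.card ≤ A.card + t) :
    (cyl (P := P) A).card ≤ (cyl (P := P) B).card * P ^ t := by
  rw [cyl_card hP, cyl_card hP, ← pow_add]
  exact Nat.pow_le_pow_right hP (by omega)

end Vale.Agent.P126.Neg
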