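import Vale.Agent.P126.Neg.Core
import Vale.Agent.P126.Neg.Cyl

/-!
P126: the separated class with small Rademacher averages, from the pins.  Its functions are the
code words; at a point the value of a word is the number of levels it reaches there.
-/

namespace Vale.Agent.P126.Neg

open scoped Classical
open Finset

variable {Q P M R : ℕ} {V : Type}

/-! ## Levels -/

/-- The normalised number of levels of `f` at `x`. -/
noncomputable def levVal (R : ℕ) (θ δ : ℕ → ℝ) (f : Omega Q P → V) (x : Pt Q P V) : ℝ :=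
  (∑ l ∈ Icc 1 R, if Lev R θ δ l f x then (1 : ℝ) else 0) / R

theorem levVal_mem (θ δ : ℕ → ℝ) (f : Omega Q P → V) (x : Pt Q P V) :
    0 ≤ levVal R θ δ f x ∧ levVal R θ δ f x ≤ 1 := by
  refine ⟨div_nonneg (sum_nonneg fun l _ => by split_ifs <;> norm_num) (Nat.cast_nonneg R), ?_⟩
  refine div_le_one_of_le₀ ?_ (Nat.cast_nonneg R)
  calc _ ≤ ∑ _l ∈ Icc 1 R, (1 : ℝ) := sum_le_sum fun l _ => by split_ifs <;> norm_num
    _ = R := by simp

theorem lev_mono {θ δ : ℕ → ℝ} {l : ℕ} {f : Omega Q P → V} {x : Pt Q P V} (hθ0 : 0 < θ l)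
    (hθ : θ l ≤ θ (l + 1)) (hδ : δ (l + 1) ≤ δ l) (h : Lev R θ δ (l + 1) f x) :
    Lev R θ δ l f x := by
  obtain ⟨n, hn, μ, ⟨h0, hsp⟩, h1, hgood⟩ := h
  refine ⟨n, hn.trans ?_, μ, ⟨h0, fun I v => (hsp I v).trans ?_⟩, h1, fun a ha =>
    ⟨(hgood a ha).1, (hgood a ha).2.trans ?_⟩⟩
  · exact Nat.sub_le_sub_right (Nat.pow_le_pow_right two_pos (by omega)) 1
  · exact pow_le_pow_left₀ (div_nonneg zero_le_one (hθ0.le.trans hθ))
      (one_div_le_one_div_of_le hθ0 hθ) _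
  · exact mul_le_mul_of_nonneg_right hδ (Nat.cast_nonneg _)

/-! ## Points -/

/-- A point whose expected values live on the cylinder of its class. -/
abbrev RawPt (Q P q : ℕ) : Type :=
  Σ i : Fin Q, Finset (Finset (Fin Q)) × (↥(cyl (P := P) ({i} : Finset (Fin Q))) → ZMod q)

/-- Extension by zero outside the cylinder. -/
noncomputable def toPt {q : ℕ} (p : RawPt Q P q) : Pt Q P (ZMod q) where
  cls := p.1
  L := p.2.1
  phi := fun w => if h : w ∈ cyl {p.1} then p.2.2 ⟨w, h⟩ else 0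

theorem card_rawPt (hP : 0 < P) (q : ℕ) [NeZero q] :
    Fintype.card (RawPt Q P q) = Q * (2 ^ 2 ^ Q * q ^ P ^ (Q - 1)) := by
  simp [RawPt, Fintype.card_sigma, Fintype.card_prod, cyl_card hP,
    Fintype.card_finset]

theorem degOK_empty {S : ℝ} (hS : 0 ≤ S) : DegOK P S M (∅ : Finset (Finset (Fin Q))) := by
  intro U r _ _
  simp only [filter_empty, card_empty, Nat.cast_zero]
  positivity

theorem degOK_card {S : ℝ} {L : Finset (Finset (Fin Q))} (hP : 0 < P) (hS : 0 ≤ S)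
    (hL : DegOK P S M L) (hsz : ∀ F ∈ L, F.card ≤ M) :
    (L.card : ℝ) ≤ (M + 1) * (S * (P : ℝ) ^ M) := by
  have hP1 : (1 : ℝ) ≤ P := Nat.one_le_cast.2 hP
  rw [card_eq_sum_card_fiberwise (s := L) (t := range (M + 1)) (f := Finset.card)
    (fun F hF => by simp only [coe_range, Set.mem_Iio]; have := hsz F hF; omega)]
  push_cast
  calc _ ≤ ∑ _r ∈ range (M + 1), S * (P : ℝ) ^ M := by
        refine sum_le_sum fun r hr => ?_
        have h := hL ∅ r (Nat.le_of_lt_succ (mem_range.1 hr)) (by simp)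
        simp only [empty_subset, and_true, card_empty, Nat.sub_zero] at h
        exact h.trans (mul_le_mul_of_nonneg_left
          (pow_le_pow_right₀ hP1 (Nat.le_of_lt_succ (mem_range.1 hr))) hS)
    _ = (M + 1) * (S * (P : ℝ) ^ M) := by simp

/-! ## Separation -/

theorem minDense_sub {Z : Finset (Omega Q P)} {c : ℕ → ℝ} {W : Finset (Fin Q)} (hW : W.card ≤ M)
    (hd : DenseAt Z ∅ c W) : ∃ F ∈ minDense Z ∅ c M, F ⊆ W := by
  obtain ⟨F, hF, hmin⟩ := exists_min_image (W.powerset.filter fun F => DenseAt Z ∅ c F) Finset.card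
    ⟨W, by simp [hd]⟩
  simp only [mem_filter, mem_powerset, and_imp] at hF hmin
  refine ⟨F, ?_, hF.1⟩
  simp only [minDense, mem_filter, mem_univ, true_and, disjoint_empty_right]
  exact ⟨(card_le_card hF.1).trans hW, hF.2, fun G hG h =>
    Nat.not_le.2 (card_lt_card hG) (hmin G (hG.subset.trans hF.1) h)⟩

/-- The thresholds. -/
noncomputable def thr (M t : ℕ) : ℝ := 1 / 4 + t / (4 * M)

theorem thr_le {t : ℕ} (ht : t ≤ M) : thr M t ≤ 1 / 2 := by
  rcases Nat.eq_zero_or_pos M with h | h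
  · subst h; simp [thr]; norm_num
  · have : (t : ℝ) / (4 * M) ≤ 1 / 4 := by
      rw [div_le_iff₀ (by positivity)]
      have : (t : ℝ) ≤ M := Nat.cast_le.2 ht
      linarith
    unfold thr; linarith

theorem not_lev_other {θ δ : ℕ → ℝ} {l : ℕ} {T : Fin Q → Fin Q → Prop} {i : Fin Q}
    (hP : 0 < P) (hT : ¬ T i i) (hl : 1 ≤ l) (hlR : l ≤ R) (hδ : δ l ≤ 1 / 2)
    {c c' : Omega Q P → V} {Z : Finset (Omega Q P)} (hZ : ∀ w, w ∈ Z ↔ c w = c' w)
    {x : Pt Q P V} (hcls : x.cls = i)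
    (hphi : ∀ w ∈ cyl ({i} : Finset (Fin Q)), x.phi w = c w)
    (hL : x.L = minDense Z ∅ (thr (2 ^ R)) (2 ^ R))
    (hdom : ∀ F ∈ x.L, ∀ a ∈ F, T i a) :
    ¬ Lev R θ δ l c' x := by
  rintro ⟨n, hn, μ, -, h1, hgood⟩
  obtain ⟨a, ha⟩ : ∃ a, μ a ≠ 0 := by
    by_contra h
    push Not at h
    simp [h] at h1
  obtain ⟨hfree, hnear⟩ := hgood a ha
  rw [hcls] at hnear
  set W := insert i (img a) with hW
  have hsub : W.card ≤ 2 ^ R := by
    have e1 : (img a).card ≤ n := (card_image_le.trans (by simp))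
    have e2 : (2 : ℕ) ^ (R - l) < 2 ^ R := Nat.pow_lt_pow_right one_lt_two (by omega)
    have e3 : W.card ≤ (img a).card + 1 := card_insert_le _ _
    have e4 : 1 ≤ 2 ^ (R - l) := Nat.one_le_two_pow
    unfold depth at hn; omega
  have hsp : cyl (P := P) W ⊆ cyl {i} := cyl_anti (by simp [hW])
  have hsplit : ((cyl (P := P) W).card : ℝ) ≤
      ((cyl W ∩ Z).card : ℝ) + (((cyl W).filter fun w => c' w ≠ x.phi w).card : ℝ) := by
    rw [← Nat.cast_add, Nat.cast_le]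
    refine (card_le_card fun w hw => ?_).trans (card_union_le _ _)
    rcases eq_or_ne (c' w) (x.phi w) with h | h
    · exact mem_union_left _ (mem_inter.2 ⟨hw, by
        rw [hZ, h, hphi w (hsp hw)]⟩)
    · exact mem_union_right _ (mem_filter.2 ⟨hw, h⟩)
  have hdense : DenseAt Z ∅ (thr (2 ^ R)) W := by
    unfold DenseAt
    rw [empty_union]
    have hn' : (((cyl (P := P) W).filter fun w => c' w ≠ x.phi w).card : ℝ) ≤
        δ l * ((cyl (P := P) W).card : ℝ) := hnear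
    have h12 : thr (2 ^ R) W.card ≤ 1 / 2 := thr_le hsub
    have hc : (0 : ℝ) ≤ ((cyl (P := P) W).card : ℝ) := Nat.cast_nonneg _
    nlinarith
  obtain ⟨F, hF, hFW⟩ := minDense_sub hsub hdense
  rw [← hL] at hF
  refine hfree F hF fun b hb => ?_
  rcases mem_insert.1 (hFW hb) with h | h
  · exact absurd (h ▸ hdom F hF b hb) hT
  · exact h

theorem lev_self {θ δ : ℕ → ℝ} {l : ℕ} (hδ : 0 ≤ δ l) {c : Omega Q P → V}
    {x : Pt Q P V} (hphi : ∀ w ∈ cyl ({x.cls} : Finset (Fin Q)), x.phi w = c w)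
    (hne : ∀ F ∈ x.L, F.Nonempty) : Lev R θ δ l c x := by
  refine ⟨0, Nat.zero_le _, fun _ => 1, ⟨fun _ => zero_le_one, fun I v => ?_⟩, by simp,
    fun a _ => ⟨fun F hF hsub => ?_, ?_⟩⟩
  · rw [Subsingleton.elim I ∅]; simp
  · obtain ⟨b, hb⟩ := hne F hF
    simpa [img] using hsub hb
  · have e : img a = ∅ := by simp [img]
    rw [e, Near, insert_empty_eq]
    refine le_trans (le_of_eq ?_) (mul_nonneg hδ (Nat.cast_nonneg _))
    rw [Nat.cast_eq_zero, card_eq_zero, filter_eq_empty_iff]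
    intro w hw
    simp [hphi w hw]

theorem exists_sep (hM : MinDenseStmt) {Q P R q : ℕ} (hP : 0 < P) (hR : 1 ≤ R) {z : ℕ} {θ δ : ℕ → ℝ}
    {T : Fin Q → Fin Q → Prop} (hTa : ∀ i j, T i j → ¬ T j i)
    (hdomT : ∀ A : Finset (Fin Q), A.card ≤ 2 ^ R * ((2 ^ R + 1) * (z * P ^ (2 ^ R))) →
      ∃ i, ∀ a ∈ A, T i a)
    (hzS : (2 ^ (2 ^ R) / (1 / (4 * ((2 ^ R : ℕ) : ℝ))) ^ 2) ^ (2 ^ R) ≤ (z : ℝ))
    (hδ0 : ∀ l, 0 ≤ δ l) (hδ2 : ∀ l, 1 ≤ l → δ l ≤ 1 / 2) {c c' : Omega Q P → ZMod q}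
    (hsep : (univ.filter fun w => c w = c' w).card < P ^ Q / 4) :
    ∃ (p : RawPt Q P q)
      (_ : PtOK T ((2 ^ (2 ^ R) / (1 / (4 * ((2 ^ R : ℕ) : ℝ))) ^ 2) ^ (2 ^ R)) (2 ^ R) (toPt p)),
      |levVal R θ δ c (toPt p) - levVal R θ δ c' (toPt p)| = 1 := by
  set M := 2 ^ R with hMdef
  set g : ℝ := 1 / (4 * (M : ℝ)) with hgdef
  set S : ℝ := (2 ^ M / g ^ 2) ^ M with hSdef
  set Kd := P ^ Q / 4 with hKd
  have hM1 : 1 ≤ M := Nat.one_le_two_pow
  have hg0 : 0 < g := by positivity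
  have hg1 : g ≤ 1 := by
    rw [hgdef, div_le_one (by positivity)]
    have : (1 : ℝ) ≤ M := Nat.one_le_cast.2 hM1
    linarith
  have hS0 : 0 ≤ S := by positivity
  set Z := univ.filter fun w => c w = c' w with hZ
  set L := minDense Z ∅ (thr M) M with hL
  have hthr : ∀ t t', t < t' → t' ≤ M → thr M t + g ≤ thr M t' := fun t t' h _ => by
    have h' : (t : ℝ) + 1 ≤ t' := by exact_mod_cast h
    have e4 : thr M t + g = 1 / 4 + ((t : ℝ) + 1) / (4 * M) := by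
      rw [thr, hgdef]; ring
    rw [e4, thr]
    gcongr
  have hdeg : DegOK P S M L := hM Q P M hP Z ∅ (thr M) g hg0 hg1 hthr
  have hsz : ∀ F ∈ L, F.card ≤ M := fun F hF => by
    exact (Finset.mem_filter.1 hF).2.1
  have hne0 : ∀ F ∈ L, F.Nonempty := fun F hF => by
    rw [nonempty_iff_ne_empty]
    rintro rfl
    have hd := (Finset.mem_filter.1 hF).2.2.2.1
    unfold DenseAt at hd
    rw [union_empty] at hd
    have h1 : ((cyl (P := P) (∅ : Finset (Fin Q)) ∩ Z).card : ℝ) < Kd := by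
      refine Nat.cast_lt.2 (lt_of_le_of_lt (card_le_card inter_subset_right) ?_)
      exact hsep
    have h2 := hd
    rw [cyl_card hP] at h2
    simp only [thr, card_empty, Nat.cast_zero, zero_div, add_zero, Nat.sub_zero] at h2
    have h3 : (Kd : ℝ) * 4 ≤ ((P ^ Q : ℕ) : ℝ) := by
      exact_mod_cast (Nat.div_mul_le_self (P ^ Q) 4)
    linarith
  have hcard : (L.biUnion id).card ≤ M * ((M + 1) * (z * P ^ M)) := by
    refine (card_biUnion_le_card_mul L id M hsz).trans ?_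
    rw [Nat.mul_comm L.card M]
    refine Nat.mul_le_mul_left _ ?_
    rw [← Nat.cast_le (α := ℝ)]
    push_cast
    exact (degOK_card hP hS0 hdeg hsz).trans (by gcongr)
  obtain ⟨i, hi⟩ := hdomT _ hcard
  have hdom : ∀ F ∈ L, ∀ a ∈ F, T i a := fun F hF a ha =>
    hi a (mem_biUnion.2 ⟨F, hF, ha⟩)
  have hok : PtOK T S M (toPt (⟨i, L, fun w => c w.1⟩ : RawPt Q P q)) :=
    ⟨hdeg, fun F hF => ⟨hne0 F hF, hsz F hF, hdom F hF⟩⟩
  refine ⟨_, hok, ?_⟩
  set p := toPt (⟨i, L, fun w => c w.1⟩ : RawPt Q P q) with hp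
  have hphi : ∀ w ∈ cyl ({i} : Finset (Fin Q)), p.phi w = c w := fun w hw => by
    rw [hp]; exact dif_pos hw
  have h1 : levVal R θ δ c p = 1 := by
    rw [levVal, sum_congr rfl fun l hl => if_pos (lev_self (x := p) (hδ0 l) hphi hne0)]
    simp [show R ≠ 0 by omega]
  have h0 : levVal R θ δ c' p = 0 := by
    rw [levVal, sum_congr rfl fun l hl => if_neg (not_lev_other (Z := Z) (x := p) hP (fun h => hTa i i h h)
      (mem_Icc.1 hl).1 (mem_Icc.1 hl).2 (hδ2 l (mem_Icc.1 hl).1) (fun w => by simp [hZ]) rfl hphi rfl hdom)]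
    simp
  rw [h1, h0]; norm_num

/-! ## Averages -/

theorem sum_Icc_telescope {A : ℕ → ℝ} {R : ℕ} (hR : 1 ≤ R) :
    ∑ l ∈ Icc 1 R, (if l < R then A l - A (l + 1) else A l) = A 1 := by
  obtain ⟨m, rfl⟩ := Nat.exists_eq_add_of_le hR
  induction m with
  | zero => simp
  | succ m ih =>
    have hsum : ∀ g : ℕ → ℝ, ∑ l ∈ Icc 1 (1 + (m + 1)), g l =
        (∑ l ∈ Icc 1 (1 + m), g l) + g (1 + m + 1) := fun g => by
      rw [show 1 + (m + 1) = 1 + m + 1 by omega, sum_Icc_succ_top (by omega)]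
    rw [hsum, if_neg (by omega)]
    have e : ∀ l ∈ Icc 1 (1 + m), (if l < 1 + (m + 1) then A l - A (l + 1) else A l) =
        (if l < 1 + m then A l - A (l + 1) else A l) - (if l = 1 + m then A (l + 1) else 0) := by
      intro l hl
      rw [mem_Icc] at hl
      rcases Nat.lt_or_eq_of_le hl.2 with h | h
      · rw [if_pos h, if_pos (by omega), if_neg (by omega)]; ring
      · rw [if_neg (show ¬ l < 1 + m by omega), if_pos (by omega), if_pos h]
    rw [sum_congr rfl e, sum_sub_distrib, ih (by omega), sum_ite_eq']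
    simp

theorem abs_sgn (s : Bool) : |sgn s| = 1 := by cases s <;> simp [sgn]

/-- From approximating sets to small Rademacher sums. -/
theorem rad_levVal (hRad : RadStmt) {d : ℕ} (hR : 1 ≤ R) {θ δ : ℕ → ℝ}
    (x : Fin d → Pt Q P V) (f : (Fin d → Bool) → Omega Q P → V) {η H t : ℝ} (ht : 0 < t)
    (hH : 0 ≤ H) (hη : 0 ≤ η)
    (hmono : ∀ l, 1 ≤ l → l < R → ∀ g k, Lev R θ δ (l + 1) g (x k) → Lev R θ δ l g (x k))
    (happ : ∀ l, 1 ≤ l → l < R → ∃ fam : Finset (Finset (Fin d)),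
      Real.log (2 * (fam.card : ℝ)) ≤ H ∧ ∀ g : Omega Q P → V, ∃ U ∈ fam,
        ((univ.filter fun i => Lev R θ δ (l + 1) g (x i) ∧ i ∉ U).card : ℝ) +
          ((univ.filter fun i => i ∈ U ∧ ¬ Lev R θ δ l g (x i)).card : ℝ) ≤ η) :
    ∑ σ : Fin d → Bool, |∑ k, sgn (σ k) * levVal R θ δ (f σ) (x k)| ≤
      2 ^ d * (H / t + d * t / 2 + (d + R * η) / R) := by
  have hall : ∀ l, ∃ fam : Finset (Finset (Fin d)), ∃ pick : (Fin d → Bool) → Finset (Fin d),
      l ∈ Icc 1 R → (∑ σ : Fin d → Bool, |∑ k ∈ pick σ, sgn (σ k)| ≤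
          2 ^ d * (H / t + d * t / 2)) ∧
        ∀ σ, ∑ k, |(if Lev R θ δ l (f σ) (x k) then (1 : ℝ) else 0) -
            (if k ∈ pick σ then 1 else 0)| ≤
          (if l < R then ((univ.filter fun k => Lev R θ δ l (f σ) (x k)).card : ℝ) -
              ((univ.filter fun k => Lev R θ δ (l + 1) (f σ) (x k)).card : ℝ)
            else ((univ.filter fun k => Lev R θ δ l (f σ) (x k)).card : ℝ)) + η := by
    intro l
    by_cases hl : 1 ≤ l ∧ l < R
    · obtain ⟨fam, hfam, hU⟩ := happ l hl.1 hl.2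
      choose U hUm hUe using hU
      refine ⟨fam, fun σ => U (f σ), fun _ => ⟨?_, fun σ => ?_⟩⟩
      · refine (hRad d fam t (fun σ => U (f σ)) ht (fun σ => hUm _)).trans ?_
        gcongr
      · rw [if_pos hl.2]
        have key : ∀ k : Fin d, |(if Lev R θ δ l (f σ) (x k) then (1 : ℝ) else 0) -
            (if k ∈ U (f σ) then 1 else 0)| ≤
            ((if Lev R θ δ l (f σ) (x k) then (1 : ℝ) else 0) -
              (if Lev R θ δ (l + 1) (f σ) (x k) then 1 else 0)) +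
            (if Lev R θ δ (l + 1) (f σ) (x k) ∧ k ∉ U (f σ) then 1 else 0) +
            (if k ∈ U (f σ) ∧ ¬ Lev R θ δ l (f σ) (x k) then 1 else 0) := by
          intro k
          by_cases h2 : Lev R θ δ (l + 1) (f σ) (x k)
          · have h1 := hmono l hl.1 hl.2 _ _ h2
            by_cases h3 : k ∈ U (f σ) <;> simp [h1, h2, h3]
          · by_cases h1 : Lev R θ δ l (f σ) (x k) <;> by_cases h3 : k ∈ U (f σ) <;>
              simp [h1, h2, h3]
        refine (sum_le_sum fun k _ => key k).trans ?_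
        simp only [sum_add_distrib, sum_sub_distrib, sum_boole]
        linarith [hUe (f σ)]
    · refine ⟨∅, fun _ => ∅, fun hm => ⟨?_, fun σ => ?_⟩⟩
      · simp only [sum_empty, abs_zero, sum_const_zero]
        positivity
      · have hlR : ¬ l < R := fun h => hl ⟨(mem_Icc.1 hm).1, h⟩
        rw [if_neg hlR]
        refine (le_of_eq ?_).trans (le_add_of_nonneg_right hη)
        rw [← sum_boole]
        exact sum_congr rfl fun k _ => by split_ifs <;> simp_all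
  choose fam pick hpick using hall
  have hR0 : (0 : ℝ) < R := Nat.cast_pos.2 hR
  have hone : ∀ σ : Fin d → Bool, |∑ k, sgn (σ k) * levVal R θ δ (f σ) (x k)| ≤
      ((∑ l ∈ Icc 1 R, |∑ k ∈ pick l σ, sgn (σ k)|) + (d + R * η)) / R := by
    intro σ
    have e : ∑ k, sgn (σ k) * levVal R θ δ (f σ) (x k) = (∑ l ∈ Icc 1 R,
        ∑ k, sgn (σ k) * (if Lev R θ δ l (f σ) (x k) then (1 : ℝ) else 0)) / R := by
      rw [sum_comm, sum_div]
      refine sum_congr rfl fun k _ => ?_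
      rw [levVal, ← mul_sum, mul_div_assoc]
    rw [e, abs_div, abs_of_pos hR0]
    gcongr
    refine (abs_sum_le_sum_abs _ _).trans ?_
    have step : ∀ l ∈ Icc 1 R,
        |∑ k, sgn (σ k) * (if Lev R θ δ l (f σ) (x k) then (1 : ℝ) else 0)| ≤
          |∑ k ∈ pick l σ, sgn (σ k)| +
            ((if l < R then ((univ.filter fun k => Lev R θ δ l (f σ) (x k)).card : ℝ) -
              ((univ.filter fun k => Lev R θ δ (l + 1) (f σ) (x k)).card : ℝ)
            else ((univ.filter fun k => Lev R θ δ l (f σ) (x k)).card : ℝ)) + η) := by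
      intro l hl
      have e2 : ∑ k ∈ pick l σ, sgn (σ k) =
          ∑ k, sgn (σ k) * (if k ∈ pick l σ then (1 : ℝ) else 0) := by
        simp [mul_ite, sum_ite_mem]
      refine le_trans ?_ (add_le_add le_rfl ((hpick l hl).2 σ))
      rw [e2]
      refine le_trans (le_trans (le_of_eq (congrArg abs (add_sub_cancel _ _).symm))
        (abs_add_le _ _)) (add_le_add le_rfl ?_)
      rw [← sum_sub_distrib]
      refine (abs_sum_le_sum_abs _ _).trans (le_of_eq (sum_congr rfl fun k _ => ?_))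
      rw [← mul_sub, abs_mul, abs_sgn, one_mul]
    refine (sum_le_sum step).trans ?_
    rw [sum_add_distrib, sum_add_distrib,
      sum_Icc_telescope (A := fun l => ((univ.filter fun k => Lev R θ δ l (f σ) (x k)).card : ℝ))
        hR]
    simp only [sum_const, Nat.card_Icc, nsmul_eq_mul]
    have : ((univ.filter fun k => Lev R θ δ 1 (f σ) (x k)).card : ℝ) ≤ d := by
      exact_mod_cast (card_le_univ _).trans (le_of_eq (Fintype.card_fin d))
    have e3 : R + 1 - 1 = R := by omega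
    rw [e3]
    linarith
  refine (sum_le_sum fun σ _ => hone σ).trans ?_
  rw [← sum_div, sum_add_distrib, sum_comm]
  have h2 : ∑ l ∈ Icc 1 R, ∑ σ : Fin d → Bool, |∑ k ∈ pick l σ, sgn (σ k)| ≤
      R * (2 ^ d * (H / t + d * t / 2)) := by
    refine (sum_le_sum fun l hl => (hpick l hl).1).trans (le_of_eq ?_)
    simp
  have h3 : ∑ _σ : Fin d → Bool, ((d : ℝ) + R * η) = 2 ^ d * (d + R * η) := by
    simp; ring
  rw [div_le_iff₀ hR0, h3]
  have h4 : 2 ^ d * (H / t + d * t / 2 + (d + R * η) / R) * (R : ℝ) =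
      R * (2 ^ d * (H / t + d * t / 2)) + 2 ^ d * (d + R * η) := by
    field_simp
  linarith

/-! ## The class -/

theorem exists_exponents (hA : ApproxStmt) {k R : ℕ} (hk : 0 < k) :
    ∃ (e : ℕ → ℕ) (e' z0 : ℕ → ℕ) (N zm : ℕ), 2 ≤ N ∧ e R = 0 ∧
      ∀ l, l < R → e (l + 1) ≤ e l ∧ e' l ≤ e l ∧ e' l ≤ N ∧ z0 l ≤ zm ∧
        ∀ z M : ℕ, z0 l ≤ z → e' l ≤ M → M ≤ z → ∀ Q : ℕ, z ^ (e' l * M) ≤ Q →
    ∀ (T : Fin Q → Fin Q → Prop) (V : Type) (S : ℝ) (x : Fin (z ^ (M - 1)) → Pt Q (z ^ M) V)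
      (θ δ : ℕ → ℝ),
      (∀ i j, T i j → ¬ T j i) → (∀ i j, i ≠ j → T i j ∨ T j i) →
      1 ≤ S → S ≤ z → (∀ i, PtOK T S (2 ^ R) (x i)) →
      (z : ℝ) ^ M / (z : ℝ) ^ (e (l + 1)) ≤ θ (l + 1) → θ (l + 1) ≤ (z : ℝ) ^ M →
      0 < θ l → θ l ≤ (z : ℝ) ^ M / (z : ℝ) ^ e' l →
      1 / ((z : ℝ) ^ M) ^ (6 * 2 ^ R * R) ≤ δ (l + 1) →
      δ (l + 1) * ((z : ℝ) ^ M) ^ (6 * 2 ^ R) ≤ δ l →
      ∃ fam : Finset (Finset (Fin (z ^ (M - 1)))),
        (fam.card : ℝ) ≤ Real.exp ((z : ℝ) ^ (M - 1) / z) ∧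
        ∀ f : Omega Q (z ^ M) → V, ∃ U ∈ fam,
          ((univ.filter fun i => Lev R θ δ (l + 1) f (x i) ∧ i ∉ U).card : ℝ) +
            ((univ.filter fun i => i ∈ U ∧ ¬ Lev R θ δ l f (x i)).card : ℝ)
              ≤ (z : ℝ) ^ (M - 1) / k := by
  have hA' : ∀ l e, ∃ e' z0 : ℕ, l + 1 ≤ R → ∀ z M : ℕ, z0 ≤ z → e' ≤ M → M ≤ z → ∀ Q : ℕ,
    z ^ (e' * M) ≤ Q →
    ∀ (T : Fin Q → Fin Q → Prop) (V : Type) (S : ℝ) (x : Fin (z ^ (M - 1)) → Pt Q (z ^ M) V)
      (θ δ : ℕ → ℝ),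
      (∀ i j, T i j → ¬ T j i) → (∀ i j, i ≠ j → T i j ∨ T j i) →
      1 ≤ S → S ≤ z → (∀ i, PtOK T S (2 ^ R) (x i)) →
      (z : ℝ) ^ M / (z : ℝ) ^ e ≤ θ (l + 1) → θ (l + 1) ≤ (z : ℝ) ^ M →
      0 < θ l → θ l ≤ (z : ℝ) ^ M / (z : ℝ) ^ e' →
      1 / ((z : ℝ) ^ M) ^ (6 * 2 ^ R * R) ≤ δ (l + 1) →
      δ (l + 1) * ((z : ℝ) ^ M) ^ (6 * 2 ^ R) ≤ δ l →
      ∃ fam : Finset (Finset (Fin (z ^ (M - 1)))),
        (fam.card : ℝ) ≤ Real.exp ((z : ℝ) ^ (M - 1) / z) ∧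
        ∀ f : Omega Q (z ^ M) → V, ∃ U ∈ fam,
          ((univ.filter fun i => Lev R θ δ (l + 1) f (x i) ∧ i ∉ U).card : ℝ) +
            ((univ.filter fun i => i ∈ U ∧ ¬ Lev R θ δ l f (x i)).card : ℝ)
              ≤ (z : ℝ) ^ (M - 1) / k := by
    intro l e
    by_cases hl : l + 1 ≤ R
    · obtain ⟨e', z0, h⟩ := hA R k l e hk hl
      exact ⟨e', z0, fun _ z M a b c Q => h z M Q a b c⟩
    · exact ⟨0, 0, fun h => absurd h hl⟩
  choose F' Z' hF using hA'
  let g : ℕ → ℕ := fun j => Nat.rec 0 (fun i gi => max (F' (R - (i + 1)) gi) gi) j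
  have hg : Monotone g := monotone_nat_of_le_succ fun i => le_max_right _ _
  refine ⟨fun l => g (R - l), fun l => F' l (g (R - (l + 1))), fun l => Z' l (g (R - (l + 1))),
    g R + 2, ∑ l ∈ range R, Z' l (g (R - (l + 1))), by omega, by simp [g], fun l hl => ?_⟩
  have e1 : g (R - l) = max (F' (R - (R - (l + 1) + 1)) (g (R - (l + 1)))) (g (R - (l + 1))) := by
    rw [show R - l = R - (l + 1) + 1 by omega]
  rw [show R - (R - (l + 1) + 1) = l by omega] at e1
  have e2 : F' l (g (R - (l + 1))) ≤ g (R - l) := e1 ▸ le_max_left _ _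
  refine ⟨hg (by omega), e2, ?_, single_le_sum (f := fun l => Z' l (g (R - (l + 1))))
    (fun _ _ => Nat.zero_le _) (mem_range.2 hl), hF l _ hl⟩
  show F' l (g (R - (l + 1))) ≤ g R + 2
  have := hg (show R - l ≤ R by omega)
  omega

theorem count_lt {z N Q q X : ℕ} {b : ℝ} (hb : 0 < b) (hzb : 56 * b < z) (hz8 : 8 ≤ z)
    (hN : 1 ≤ N) (hQ : 2 ≤ Q) (hq : q.Prime) (hX0 : 0 < X)
    (hXc : X ≤ Q * (2 ^ 2 ^ Q * q ^ (z ^ N) ^ (Q - 1))) :
    b * (((z ^ (N - 1) : ℕ) : ℝ) * Real.log (2 * (X : ℝ))) <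
      (((z ^ N) ^ Q / 4 : ℕ) : ℝ) * Real.log q := by
  set P := z ^ N with hPdef
  have hzP : z ≤ P := Nat.le_self_pow (by omega) z
  have hP : 0 < P := by omega
  set Kd := P ^ Q / 4 with hKd
  set d := z ^ (N - 1) with hd
  have hQ1 : 2 ≤ Q := by omega
  have hlq : (1 / 2 : ℝ) ≤ Real.log q := by
    refine le_trans ?_ (Real.log_le_log two_pos (Nat.ofNat_le_cast.2 hq.two_le))
    linarith [Real.log_two_gt_d9]
  have hpow : (2 : ℝ) ^ Q ≤ (P : ℝ) ^ (Q - 1) := by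
    calc (2 : ℝ) ^ Q ≤ 2 ^ (2 * (Q - 1)) := pow_le_pow_right₀ one_le_two (by omega)
      _ = (4 : ℝ) ^ (Q - 1) := by rw [pow_mul]; norm_num
      _ ≤ _ := pow_le_pow_left₀ (by norm_num) (Nat.ofNat_le_cast.2 (by omega)) _
  have hlog : Real.log (2 * (X : ℝ)) ≤ 7 * ((P : ℝ) ^ (Q - 1) * Real.log q) := by
    have h0 : 0 < X := hX0
    refine (Real.log_le_log (by positivity) (mul_le_mul_of_nonneg_left (Nat.cast_le.2 hXc)
      zero_le_two)).trans ?_
    have hQ0 : (0 : ℝ) < Q := Nat.cast_pos.2 (by omega)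
    have hq0 : (0 : ℝ) < q := Nat.cast_pos.2 hq.pos
    push_cast
    rw [Real.log_mul two_ne_zero (by positivity), Real.log_mul hQ0.ne' (by positivity),
      Real.log_mul (by positivity) (by positivity), Real.log_pow, Real.log_pow]
    push_cast
    have hQl : Real.log Q ≤ (2 : ℝ) ^ Q := by
      refine (Real.log_le_self hQ0.le).trans ?_
      exact_mod_cast Nat.lt_two_pow_self.le
    have h1 : (1 : ℝ) ≤ (2 : ℝ) ^ Q := one_le_pow₀ one_le_two
    have h2 : (2 : ℝ) ^ Q ≤ 2 * ((P : ℝ) ^ (Q - 1) * Real.log q) := by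
      nlinarith [mul_nonneg (by positivity : (0 : ℝ) ≤ (P : ℝ) ^ (Q - 1)) (sub_nonneg.2 hlq)]
    nlinarith [Real.log_two_lt_d9, Real.log_two_gt_d9,
      mul_nonneg (by positivity : (0 : ℝ) ≤ (2 : ℝ) ^ Q)
        (sub_nonneg.2 Real.log_two_lt_d9.le)]
  have hPQ : 8 ≤ P ^ Q := (show 8 ≤ P by omega).trans (Nat.le_self_pow (by omega) P)
  have hK : ((P ^ Q : ℕ) : ℝ) ≤ 8 * (Kd : ℝ) := by
    have : P ^ Q ≤ 8 * Kd := by omega
    exact_mod_cast this
  have hdP : (d : ℝ) * z * (P : ℝ) ^ (Q - 1) = ((P ^ Q : ℕ) : ℝ) := by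
    have : d * z * P ^ (Q - 1) = P ^ Q := by
      rw [hd, ← pow_succ, Nat.sub_add_cancel (by omega : 1 ≤ N), ← hPdef, ← pow_succ',
        Nat.sub_add_cancel (by omega : 1 ≤ Q)]
    exact_mod_cast this
  have hA0 : 0 < (d : ℝ) * (P : ℝ) ^ (Q - 1) * Real.log q := by
    have : (0 : ℝ) < P := Nat.cast_pos.2 hP
    have : (0 : ℝ) < d := by rw [hd]; positivity
    have : 0 < Real.log q := by linarith
    positivity
  calc b * ((d : ℝ) * Real.log (2 * (X : ℝ)))
      ≤ b * ((d : ℝ) * (7 * ((P : ℝ) ^ (Q - 1) * Real.log q))) := by gcongr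
    _ < z / 8 * ((d : ℝ) * (P : ℝ) ^ (Q - 1) * Real.log q) := by
        nlinarith [mul_pos (sub_pos.2 hzb) hA0]
    _ = ((P ^ Q : ℕ) : ℝ) / 8 * Real.log q := by rw [← hdP]; ring
    _ ≤ _ := by
        refine mul_le_mul_of_nonneg_right ?_ (by linarith)
        linarith

theorem class_of (hT : TournStmt) (hC : CodeStmt) (hM : MinDenseStmt) (hRad : RadStmt)
    (hA : ApproxStmt) : ClassStmt := by
  intro ε b hε hb
  obtain ⟨R, hR1, hRε⟩ : ∃ R : ℕ, 1 ≤ R ∧ 4 / ε ≤ R :=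
    ⟨⌈4 / ε⌉₊ + 1, Nat.le_add_left 1 _, le_trans (Nat.le_ceil _) (by norm_num)⟩
  obtain ⟨e, e', z0, N, zm, hN2, heR, he⟩ := exists_exponents hA (k := R) (R := R) hR1
  set M := 2 ^ R with hMdef
  set g : ℝ := 1 / (4 * M) with hgdef
  set S : ℝ := (2 ^ M / g ^ 2) ^ M with hSdef
  obtain ⟨z, hz⟩ : ∃ z : ℕ, zm + N + ⌈S⌉₊ + ⌈16 / ε ^ 2⌉₊ + ⌈56 * b⌉₊ + 8 ≤ z := ⟨_, le_rfl⟩
  have hzS : S ≤ z := (Nat.le_ceil S).trans (Nat.cast_le.2 (by omega))
  have hzε : 16 / ε ^ 2 ≤ z := (Nat.le_ceil _).trans (Nat.cast_le.2 (by omega))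
  have hzb : 56 * b < z := lt_of_le_of_lt (Nat.le_ceil _) (Nat.cast_lt.2 (by omega))
  have hz8 : (8 : ℕ) ≤ z := by omega
  set P := z ^ N with hPdef
  have hzP : z ≤ P := Nat.le_self_pow (by omega) z
  have hP : 0 < P := by omega
  have hM1 : 1 ≤ M := Nat.one_le_two_pow
  have hg0 : 0 < g := by positivity
  have hg1 : g ≤ 1 := by
    rw [hgdef, div_le_one (by positivity)]
    have : (1 : ℝ) ≤ M := Nat.one_le_cast.2 hM1
    linarith
  have hS1 : 1 ≤ S := by
    refine one_le_pow₀ ?_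
    rw [le_div_iff₀ (by positivity), one_mul]
    exact (pow_le_one₀ hg0.le hg1).trans (one_le_pow₀ one_le_two)
  obtain ⟨Q, hQ, T, hTa, hTt, hdomT⟩ := hT (M * ((M + 1) * (z * P ^ M))) (z ^ (N * N) + 2)
  obtain ⟨q, hqΩ, hq⟩ := Nat.exists_infinite_primes (Fintype.card (Omega Q P) + 2)
  have : Fact q.Prime := ⟨hq⟩
  have : NeZero q := ⟨hq.ne_zero⟩
  set Kd := P ^ Q / 4 with hKd
  have hΩ : Fintype.card (Omega Q P) = P ^ Q := by simp
  have hKle : Kd ≤ Fintype.card (Omega Q P) := hΩ ▸ Nat.div_le_self _ _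
  obtain ⟨C, hCcard, hCsep⟩ := hC (Omega Q P) q Kd (by omega) hKle
  let θ : ℕ → ℝ := fun l => (z : ℝ) ^ N / (z : ℝ) ^ e l
  let δ : ℕ → ℝ := fun l => 1 / ((z : ℝ) ^ N) ^ (6 * M * l)
  have hzr : (1 : ℝ) ≤ z := Nat.one_le_cast.2 (by omega)
  have hP8 : (8 : ℝ) ≤ (z : ℝ) ^ N := by
    have : (8 : ℕ) ≤ P := by omega
    rw [hPdef] at this
    exact_mod_cast this
  have hθpos : ∀ l, 0 < θ l := fun l => by positivity
  have hδhalf : ∀ l, 1 ≤ l → δ l ≤ 1 / 2 := fun l hl => by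
    refine one_div_le_one_div_of_le two_pos ?_
    have h6 : 1 ≤ 6 * M * l := Nat.one_le_iff_ne_zero.2 (by positivity)
    calc (2 : ℝ) ≤ (z : ℝ) ^ N := by linarith
      _ = ((z : ℝ) ^ N) ^ 1 := (pow_one _).symm
      _ ≤ _ := pow_le_pow_right₀ (by linarith) h6
  have hθmono : ∀ l, l < R → θ l ≤ θ (l + 1) := fun l hl =>
    div_le_div_of_nonneg_left (by positivity) (by positivity) (pow_le_pow_right₀ hzr (he l hl).1)
  have hδeq : ∀ l, δ (l + 1) * ((z : ℝ) ^ N) ^ (6 * M) = δ l := fun l => by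
    simp only [δ]
    rw [mul_add, mul_one, pow_add]
    field_simp
  have hδmono : ∀ l, δ (l + 1) ≤ δ l := fun l =>
    le_of_le_of_eq (le_mul_of_one_le_right (by positivity) (one_le_pow₀ (by linarith))) (hδeq l)
  let X : Type := {p : RawPt Q P q // PtOK T S M (toPt p)}
  have i₀ : Fin Q := ⟨0, by omega⟩
  have hX : Nonempty X := ⟨⟨⟨i₀, ∅, fun _ => 0⟩, degOK_empty (by linarith), by simp [toPt]⟩⟩
  let Fv : ↥C → X → ℝ := fun c p => levVal R θ δ c.1 (toPt p.1)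
  set d := z ^ (N - 1) with hd
  refine ⟨X, ↥C, inferInstance, hX, inferInstance, Fv, d, by positivity,
    fun c p => levVal_mem _ _ _ _, ?_, ?_, ?_⟩
  · -- separation
    intro c c' hne
    obtain ⟨p, hp, h⟩ := exists_sep hM hP hR1 hTa hdomT hzS (fun l => by positivity) hδhalf
      (hCsep _ c.2 _ c'.2 (Subtype.coe_injective.ne hne))
    exact ⟨⟨p, hp⟩, h⟩
  · -- Rademacher averages
    intro x pick
    have hd0 : (z : ℝ) ≤ d := by
      rw [hd]; exact_mod_cast Nat.le_self_pow (by omega : N - 1 ≠ 0) z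
    refine (rad_levVal hRad hR1 (fun k => toPt (x k).1) (fun σ => (pick σ).1)
      (η := d / R) (H := 2 * d / z) (t := ε / 2) (by positivity) (by positivity) (by positivity)
      (fun l _ hl g k => lev_mono (hθpos l) (hθmono l hl) (hδmono l)) fun l hl1 hlR => ?_).trans ?_
    · obtain ⟨-, hee, heN, hzl, hfun⟩ := he l hlR
      have hQ' : z ^ (e' l * N) ≤ Q := le_trans
        (Nat.pow_le_pow_right (by omega) (Nat.mul_le_mul_right N heN)) (by omega)
      obtain ⟨fam, hfam, hU⟩ := hfun z N (by omega) heN (by omega) Q hQ' T (ZMod q) S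
        (fun k => toPt (x k).1) θ δ hTa hTt hS1 hzS (fun k => (x k).2) le_rfl
        (div_le_self (by positivity) (one_le_pow₀ hzr)) (hθpos l)
        (div_le_div_of_nonneg_left (by positivity) (by positivity) (pow_le_pow_right₀ hzr hee))
        (one_div_le_one_div_of_le (by positivity)
          (pow_le_pow_right₀ (by linarith) (Nat.mul_le_mul_left _ (show l + 1 ≤ R from hlR))))
        (hδeq l).le
      refine ⟨fam, ?_, fun g => by
        obtain ⟨U, hU1, hU2⟩ := hU g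
        exact ⟨U, hU1, hU2.trans (le_of_eq (by rw [hd]; push_cast; rfl))⟩⟩
      have h2 : Real.log 2 ≤ (d : ℝ) / z := by
        refine le_trans ?_ ((one_le_div (by positivity)).2 hd0)
        linarith [Real.log_two_lt_d9]
      rcases Nat.eq_zero_or_pos fam.card with h | h
      · rw [h]; simp only [Nat.cast_zero, mul_zero, Real.log_zero]; positivity
      · have h' : (0 : ℝ) < fam.card := Nat.cast_pos.2 h
        rw [Real.log_mul two_ne_zero h'.ne']
        have := (Real.log_le_iff_le_exp h').2 hfam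
        rw [show (z : ℝ) ^ (N - 1) = (d : ℝ) by rw [hd]; push_cast; rfl] at this
        rw [mul_div_assoc]; linarith
    · gcongr
      have hR0 : (0 : ℝ) < R := Nat.cast_pos.2 hR1
      have e1 : ((d : ℝ) + R * (d / R)) / R ≤ ε / 2 * d := by
        rw [div_le_iff₀ hR0, mul_div_cancel₀ _ hR0.ne']
        rw [div_le_iff₀ hε] at hRε
        nlinarith [mul_nonneg (Nat.cast_nonneg d : (0 : ℝ) ≤ d) (sub_nonneg.2 hRε)]
      have e2 : 2 * (d : ℝ) / z / (ε / 2) ≤ ε / 4 * d := by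
        rw [div_le_iff₀ (by positivity), div_le_iff₀ (by positivity)]
        rw [div_le_iff₀ (by positivity)] at hzε
        nlinarith [mul_nonneg (Nat.cast_nonneg d : (0 : ℝ) ≤ d) (sub_nonneg.2 hzε)]
      linarith
  · -- the count
    have h := count_lt (z := z) (N := N) (Q := Q) (q := q) (X := Fintype.card X) hb hzb hz8
      (by omega) (by omega) hq (Fintype.card_pos_iff.2 hX)
      ((Fintype.card_subtype_le _).trans (card_rawPt hP q).le)
    rw [Fintype.card_coe, hCcard]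
    push_cast
    rw [Real.log_pow]
    exact h

end Vale.Agent.P126.Neg
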