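import Vale.Agent.P126.Neg.Defs

/-! Levels of the separated class and the statement that few sets approximate them. -/

namespace Vale.Agent.P126.Neg

open scoped Classical
open Finset

/-- A point: a class, a list of edges and the values expected on the cylinder of the class. -/
structure Pt (Q P : ℕ) (V : Type) where
  cls : Fin Q
  L : Finset (Finset (Fin Q))
  phi : Omega Q P → V

/-- Validity of a point: its edges are dominated by its class and have bounded degree. -/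
def PtOK {Q P : ℕ} {V : Type} (T : Fin Q → Fin Q → Prop) (S : ℝ) (M : ℕ) (x : Pt Q P V) : Prop :=
  DegOK P S M x.L ∧ ∀ F ∈ x.L, F.Nonempty ∧ F.card ≤ M ∧ ∀ a ∈ F, T x.cls a

/-- `f` and `phi` differ on at most a fraction `δ` of the cylinder of `A`. -/
def Near {Q P : ℕ} {V : Type} (f phi : Omega Q P → V) (δ : ℝ) (A : Finset (Fin Q)) : Prop :=
  (((cyl (P := P) A).filter fun w => f w ≠ phi w).card : ℝ) ≤ δ * ((cyl (P := P) A).card : ℝ)

/-- The longest tuples allowed at level `l`. -/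
def depth (R l : ℕ) : ℕ := 2 ^ (R - l) - 1

/-- Level `l` of `f` at the point `x`. -/
def Lev {Q P : ℕ} {V : Type} (R : ℕ) (θ δ : ℕ → ℝ) (l : ℕ) (f : Omega Q P → V) (x : Pt Q P V) :
    Prop :=
  ∃ n : ℕ, n ≤ depth R l ∧ ∃ μ : (Fin n → Fin Q) → ℝ, Spread (θ l) μ ∧ ∑ a, μ a = 1 ∧
    ∀ a, μ a ≠ 0 → Free x.L (img a) ∧ Near f x.phi (δ l) (insert x.cls (img a))

/-- On any sample of `z ^ (N - 1)` points, two consecutive levels are separated by a small family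
of sets, up to a proportion `1 / k`. -/
def ApproxStmt : Prop :=
  ∀ R k l e : ℕ, 0 < k → l + 1 ≤ R → ∃ e' z0 : ℕ, ∀ z N Q : ℕ, z0 ≤ z → e' ≤ N → N ≤ z →
    z ^ (e' * N) ≤ Q →
    ∀ (T : Fin Q → Fin Q → Prop) (V : Type) (S : ℝ) (x : Fin (z ^ (N - 1)) → Pt Q (z ^ N) V)
      (θ δ : ℕ → ℝ),
      (∀ i j, T i j → ¬ T j i) → (∀ i j, i ≠ j → T i j ∨ T j i) →
      1 ≤ S → S ≤ z → (∀ i, PtOK T S (2 ^ R) (x i)) →
      (z : ℝ) ^ N / (z : ℝ) ^ e ≤ θ (l + 1) → θ (l + 1) ≤ (z : ℝ) ^ N →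
      0 < θ l → θ l ≤ (z : ℝ) ^ N / (z : ℝ) ^ e' →
      1 / ((z : ℝ) ^ N) ^ (6 * 2 ^ R * R) ≤ δ (l + 1) →
      δ (l + 1) * ((z : ℝ) ^ N) ^ (6 * 2 ^ R) ≤ δ l →
      ∃ fam : Finset (Finset (Fin (z ^ (N - 1)))),
        (fam.card : ℝ) ≤ Real.exp ((z : ℝ) ^ (N - 1) / z) ∧
        ∀ f : Omega Q (z ^ N) → V, ∃ U ∈ fam,
          ((univ.filter fun i => Lev R θ δ (l + 1) f (x i) ∧ i ∉ U).card : ℝ) +
            ((univ.filter fun i => i ∈ U ∧ ¬ Lev R θ δ l f (x i)).card : ℝ)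
              ≤ (z : ℝ) ^ (N - 1) / k

end Vale.Agent.P126.Neg
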