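import Vale.Agent.P126.Neg.Cyl

/-! A Schütte tournament by counting, and Reed-Solomon codes. -/

namespace Vale.Agent.P126.Neg

open scoped Classical
open Finset Polynomial

/-- Reed-Solomon codes. -/
theorem codeStmt : CodeStmt := by
  intro α _ q Kd _ hq hKd
  have hcard : Fintype.card α ≤ Fintype.card (ZMod q) := by rwa [ZMod.card]
  obtain ⟨e⟩ := Function.Embedding.nonempty_of_card_le hcard
  let poly : (Fin Kd → ZMod q) → (ZMod q)[X] := fun a => ∑ i : Fin Kd, C (a i) * X ^ (i : ℕ)
  have hinj : Function.Injective poly := fun a b h => funext fun j => by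
    simpa [poly, finsetSum_coeff, coeff_C_mul, coeff_X_pow, Fin.val_inj] using
      congrArg (fun p => coeff p (j : ℕ)) h
  have hagree : ∀ a b : Fin Kd → ZMod q, a ≠ b →
      (univ.filter fun w : α => (poly a).eval (e w) = (poly b).eval (e w)).card < Kd := by
    intro a b hab
    have hd : poly a - poly b ≠ 0 := sub_ne_zero.2 (hinj.ne hab)
    have hdeg : (poly a - poly b).natDegree < Kd :=
      (natDegree_lt_iff_degree_lt hd).2
        (lt_of_le_of_lt (degree_sub_le _ _) (max_lt (degree_sum_fin_lt a) (degree_sum_fin_lt b)))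
    refine lt_of_le_of_lt ?_ hdeg
    rw [← card_map e]
    refine le_trans (card_le_card ?_) ((Multiset.toFinset_card_le _).trans (card_roots' _))
    intro x hx
    obtain ⟨w, hw, rfl⟩ := mem_map.1 hx
    rw [Multiset.mem_toFinset, mem_roots hd, IsRoot.def, eval_sub, sub_eq_zero]
    exact (mem_filter.1 hw).2
  have hev : Function.Injective fun a w => (poly a).eval (e w) := by
    intro a b h
    by_contra hab
    have h1 := hagree a b hab
    rw [filter_true_of_mem fun w _ => congrFun h w, card_univ] at h1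
    omega
  refine ⟨univ.image fun a w => (poly a).eval (e w), ?_, ?_⟩
  · rw [card_image_of_injective _ hev]; simp
  · simp only [mem_image, mem_univ, true_and]
    rintro c ⟨a, rfl⟩ c' ⟨b, rfl⟩ hne
    exact hagree a b fun h => hne (by rw [h])

/-- The coordinate that decides the edge between two vertices. -/
def pairKey {Q : ℕ} (i a : Fin Q) : Fin Q × Fin Q := (min i a, max i a)

/-- The tournament of a choice of signs. -/
def beats {Q : ℕ} (σ : Fin Q × Fin Q → Bool) (i j : Fin Q) : Prop :=
  i ≠ j ∧ σ (pairKey i j) = decide (i < j)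

theorem beats_asymm {Q : ℕ} {σ : Fin Q × Fin Q → Bool} {i j : Fin Q} (h : beats σ i j) :
    ¬ beats σ j i := by
  rintro ⟨-, h'⟩
  have h1 := h.2
  rw [show pairKey j i = pairKey i j by simp [pairKey, min_comm, max_comm], h1] at h'
  rcases lt_or_gt_of_ne h.1 with hl | hl <;> simp [hl, hl.not_gt] at h'

theorem beats_total {Q : ℕ} (σ : Fin Q × Fin Q → Bool) {i j : Fin Q} (h : i ≠ j) :
    beats σ i j ∨ beats σ j i := by
  unfold beats
  rw [show pairKey j i = pairKey i j by simp [pairKey, min_comm, max_comm]]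
  rcases lt_or_gt_of_ne h with hl | hl <;>
    cases σ (pairKey i j) <;> simp [h, h.symm, hl, hl.not_gt]

/-- Few choices of signs leave a given set without a common dominator. -/
theorem bad_card_mul_le {Q : ℕ} (A : Finset (Fin Q)) :
    (univ.filter fun σ : Fin Q × Fin Q → Bool =>
        ∀ i, ∃ a ∈ A, ¬ beats σ i a).card * (2 ^ A.card) ^ (Q - A.card)
      ≤ (2 ^ A.card - 1) ^ (Q - A.card) * 2 ^ (Q * Q) := by
  set I := {i : Fin Q // i ∉ A}
  set J := {a : Fin Q // a ∈ A}
  set key : I × J → Fin Q × Fin Q := fun p => pairKey p.1.1 p.2.1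
  have hkey : Function.Injective key := by
    rintro ⟨⟨i, hi⟩, a, ha⟩ ⟨⟨i', hi'⟩, a', ha'⟩ h
    simp only [key, pairKey, Prod.mk.injEq] at h
    have h' : (i = i' ∧ a = a') ∨ (i = a' ∧ a = i') := by
      rcases le_total i a with h1 | h1 <;> rcases le_total i' a' with h2 | h2 <;>
        simp [h1, h2] at h <;> tauto
    rcases h' with ⟨rfl, rfl⟩ | ⟨rfl, -⟩
    · rfl
    · exact absurd ha' hi
  set rest := {p : Fin Q × Fin Q // p ∉ univ.image key}
  set target : Finset ((I → J → Bool) × (rest → Bool)) :=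
    (Fintype.piFinset fun i : I => univ.erase fun a : J => decide (i.1 < a.1)) ×ˢ univ
  have hle : (univ.filter fun σ : Fin Q × Fin Q → Bool =>
      ∀ i, ∃ a ∈ A, ¬ beats σ i a).card ≤ target.card := by
    refine card_le_card_of_injOn (fun σ => (fun i a => σ (key (i, a)), fun p => σ p.1)) ?_ ?_
    · intro σ hσ
      simp only [coe_filter, mem_univ, true_and, Set.mem_ofPred_eq] at hσ
      simp only [target, mem_coe, mem_product, Fintype.mem_piFinset, mem_erase, mem_univ, and_true]
      intro i h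
      obtain ⟨a, ha, hb⟩ := hσ i.1
      exact hb ⟨fun hia => i.2 (hia ▸ ha), congrFun h ⟨a, ha⟩⟩
    · intro σ _ τ _ h
      simp only [Prod.mk.injEq] at h
      funext p
      by_cases hp : p ∈ univ.image key
      · obtain ⟨⟨i, a⟩, -, rfl⟩ := mem_image.1 hp
        exact congrFun (congrFun h.1 i) a
      · exact congrFun h.2 ⟨p, hp⟩
  have hI : Fintype.card I = Q - A.card := by simp [I, Fintype.card_subtype_compl]
  have hJ : Fintype.card J = A.card := by simp [J]
  have hrest : Fintype.card rest + (Q - A.card) * A.card = Q * Q := by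
    have h1 : (univ.image key).card = (Q - A.card) * A.card := by
      rw [card_image_of_injective _ hkey, card_univ, Fintype.card_prod, hI, hJ]
    have h2 : Fintype.card rest = Q * Q - (univ.image key).card := by
      rw [Fintype.card_subtype_compl, Fintype.card_coe, Fintype.card_prod, Fintype.card_fin]
    have h3 := (univ.image key).card_le_univ
    simp only [Fintype.card_prod, Fintype.card_fin] at h3
    omega
  have htarget : target.card = (2 ^ A.card - 1) ^ (Q - A.card) * 2 ^ Fintype.card rest := by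
    simp [target, Fintype.card_piFinset, card_product, hI, hJ]
  calc _ ≤ target.card * (2 ^ A.card) ^ (Q - A.card) := Nat.mul_le_mul_right _ hle
    _ = (2 ^ A.card - 1) ^ (Q - A.card) * 2 ^ (Fintype.card rest + (Q - A.card) * A.card) := by
        rw [htarget, pow_add, ← pow_mul, Nat.mul_comm A.card, mul_assoc]
    _ = _ := by rw [hrest]

theorem card_small_sets_le (Q lam : ℕ) :
    (univ.filter fun A : Finset (Fin Q) => A.card ≤ lam).card ≤ (lam + 1) * (Q + 1) ^ lam := by
  have h : (univ.filter fun A : Finset (Fin Q) => A.card ≤ lam) ⊆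
      (range (lam + 1)).biUnion fun k => powersetCard k univ := by
    intro A hA
    simpa [Nat.lt_succ_iff] using (mem_filter.1 hA).2
  refine (card_le_card h).trans (card_biUnion_le.trans ?_)
  refine le_trans (sum_le_card_nsmul _ _ ((Q + 1) ^ lam) fun k hk => ?_) (by simp)
  rw [card_powersetCard, card_univ, Fintype.card_fin]
  exact ((Nat.choose_le_pow Q k).trans (Nat.pow_le_pow_left (Nat.le_succ Q) k)).trans
    (Nat.pow_le_pow_right (Nat.succ_pos Q) (Nat.lt_succ_iff.1 (mem_range.1 hk)))

/-- A tournament in which every set of at most `lam` vertices has a common dominator. -/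
theorem tournStmt : TournStmt := by
  intro lam lo
  set r : ℝ := 1 - 1 / 2 ^ (lam + 1) with hr
  have h2 : (1 : ℝ) / 2 ^ (lam + 1) < 1 := by
    rw [div_lt_one (by positivity)]; exact one_lt_pow₀ one_lt_two (Nat.succ_ne_zero _)
  have hr0 : 0 < r := by linarith
  have hr1 : r < 1 := by
    have : (0 : ℝ) < 1 / 2 ^ (lam + 1) := by positivity
    linarith
  have hlim := tendsto_pow_const_mul_const_pow_of_abs_lt_one lam
    (show |r| < 1 by rwa [abs_of_pos hr0])
  obtain ⟨n0, hn0⟩ := Filter.eventually_atTop.1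
    (hlim.eventually (eventually_lt_nhds (show 0 < r ^ (lam + 1) / (lam + 1 : ℝ) by positivity)))
  set Q := max n0 (max lo lam)
  have hsmall : (lam + 1 : ℝ) * (Q + 1 : ℝ) ^ lam * r ^ (Q - lam) < 1 := by
    have h := hn0 (Q + 1) (by omega)
    rw [show r ^ (Q + 1) = r ^ (lam + 1) * r ^ (Q - lam) by rw [← pow_add]; congr 1; omega,
      lt_div_iff₀ (by positivity)] at h
    push_cast at h
    nlinarith [pow_pos hr0 (lam + 1)]
  refine ⟨Q, by omega, ?_⟩
  suffices ∃ σ : Fin Q × Fin Q → Bool,
      ∀ A : Finset (Fin Q), A.card ≤ lam → ∃ i, ∀ a ∈ A, beats σ i a by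
    obtain ⟨σ, hσ⟩ := this
    exact ⟨beats σ, fun _ _ h => beats_asymm h, fun _ _ h => beats_total σ h, hσ⟩
  by_contra hcon
  push Not at hcon
  set sm := univ.filter fun A : Finset (Fin Q) => A.card ≤ lam
  set bad : Finset (Fin Q) → Finset (Fin Q × Fin Q → Bool) := fun A =>
    univ.filter fun σ => ∀ i, ∃ a ∈ A, ¬ beats σ i a
  have hcover : (univ : Finset (Fin Q × Fin Q → Bool)) ⊆ sm.biUnion bad := by
    intro σ _
    obtain ⟨A, hA, h⟩ := hcon σ
    exact mem_biUnion.2 ⟨A, by simp [sm, hA], by simpa [bad] using h⟩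
  have hbad : ∀ A ∈ sm, ((bad A).card : ℝ) ≤ r ^ (Q - lam) * 2 ^ (Q * Q) := by
    intro A hA
    have hAl : A.card ≤ lam := (mem_filter.1 hA).2
    have h := bad_card_mul_le A
    have h' : ((bad A).card : ℝ) * ((2 : ℝ) ^ A.card) ^ (Q - A.card) ≤
        ((2 : ℝ) ^ A.card - 1) ^ (Q - A.card) * 2 ^ (Q * Q) := by
      have := (Nat.cast_le (α := ℝ)).2 h
      simpa [bad, Nat.cast_sub Nat.one_le_two_pow] using this
    have hpos : (0 : ℝ) < 2 ^ A.card := by positivity
    have hs : ((2 : ℝ) ^ A.card - 1) / 2 ^ A.card ≤ r := by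
      rw [sub_div, div_self hpos.ne', hr]
      have : (2 : ℝ) ^ A.card ≤ 2 ^ (lam + 1) := pow_le_pow_right₀ one_le_two (by omega)
      linarith [one_div_le_one_div_of_le hpos this]
    have hs0 : 0 ≤ ((2 : ℝ) ^ A.card - 1) / 2 ^ A.card :=
      div_nonneg (sub_nonneg.2 (one_le_pow₀ one_le_two)) hpos.le
    calc ((bad A).card : ℝ)
        ≤ (((2 : ℝ) ^ A.card - 1) / 2 ^ A.card) ^ (Q - A.card) * 2 ^ (Q * Q) := by
          rw [div_pow, div_mul_eq_mul_div, le_div_iff₀ (by positivity)]; exact h'
      _ ≤ r ^ (Q - lam) * 2 ^ (Q * Q) := by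
          refine mul_le_mul_of_nonneg_right ?_ (by positivity)
          exact (pow_le_pow_left₀ hs0 hs _).trans
            (pow_le_pow_of_le_one hr0.le hr1.le (by omega))
  have hsum : ((2 : ℝ) ^ (Q * Q)) ≤ (sm.card : ℝ) * (r ^ (Q - lam) * 2 ^ (Q * Q)) := by
    calc ((2 : ℝ) ^ (Q * Q)) = ((univ : Finset (Fin Q × Fin Q → Bool)).card : ℝ) := by simp
      _ ≤ ((sm.biUnion bad).card : ℝ) := by exact_mod_cast card_le_card hcover
      _ ≤ ∑ A ∈ sm, ((bad A).card : ℝ) := by exact_mod_cast card_biUnion_le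
      _ ≤ sm.card • (r ^ (Q - lam) * 2 ^ (Q * Q)) := sum_le_card_nsmul _ _ _ hbad
      _ = _ := nsmul_eq_mul _ _
  have hcs : (sm.card : ℝ) ≤ (lam + 1 : ℝ) * (Q + 1 : ℝ) ^ lam := by
    exact_mod_cast card_small_sets_le Q lam
  have h1 : (sm.card : ℝ) * r ^ (Q - lam) < 1 :=
    (mul_le_mul_of_nonneg_right hcs (pow_nonneg hr0.le _)).trans_lt hsmall
  nlinarith [pow_pos (two_pos (α := ℝ)) (Q * Q)]

end Vale.Agent.P126.Neg
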