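import Vale.Agent.P126.Neg.Cyl

/-! Minimal dense sets have bounded degree. -/

namespace Vale.Agent.P126.Neg

open scoped Classical
open Finset

variable {Q P : ℕ}

theorem sq_sum_sub_le {α : Type} (Y Z : Finset α) (hZ : Z ⊆ Y) (d : α → ℝ) (μ : ℝ) :
    (∑ w ∈ Z, (d w - μ)) ^ 2 ≤ (Y.card : ℝ) * ∑ w ∈ Y, (d w - μ) ^ 2 := by
  refine (sq_sum_le_card_mul_sum_sq).trans ?_
  have h1 : (Z.card : ℝ) ≤ Y.card := by exact_mod_cast card_le_card hZ
  have h2 : ∑ w ∈ Z, (d w - μ) ^ 2 ≤ ∑ w ∈ Y, (d w - μ) ^ 2 :=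
    sum_le_sum_of_subset_of_nonneg hZ fun _ _ _ => sq_nonneg _
  gcongr

theorem cyl_inter_card (hP : 0 < P) {C H : Finset (Fin Q)} (h : Disjoint C H) :
    ((cyl (P := P) (C ∪ H)).card : ℝ) * (P : ℝ) ^ H.card = (cyl (P := P) C).card := by
  have h1 := cyl_card_mul hP (C ∪ H)
  rw [card_union_of_disjoint h, pow_add, mul_comm (P ^ C.card), ← mul_assoc,
    ← cyl_card_mul hP C] at h1
  exact_mod_cast Nat.eq_of_mul_eq_mul_right (pow_pos hP _) h1

theorem sum_ind (Z : Finset (Omega Q P)) (Hs : Finset (Finset (Fin Q))) :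
    ∑ w ∈ Z, ((Hs.filter fun H => w ∈ cyl H).card : ℝ) = ∑ H ∈ Hs, ((Z ∩ cyl H).card : ℝ) := by
  simp only [card_filter, Nat.cast_sum]
  rw [sum_comm]
  refine sum_congr rfl fun H _ => ?_
  rw [← Nat.cast_sum, ← card_filter, filter_mem_eq_inter]

/-- The second moment bound on one link. -/
theorem link_card (hP : 0 < P) (C : Finset (Fin Q)) (Z : Finset (Omega Q P))
    (Hs : Finset (Finset (Fin Q))) (h : ℕ) (c g D : ℝ) (hg : 0 ≤ g) (hD0 : 0 ≤ D)
    (hH : ∀ H ∈ Hs, H.card = h ∧ Disjoint C H)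
    (hlow : ((cyl (P := P) C ∩ Z).card : ℝ) ≤ c * (cyl (P := P) C).card)
    (hhigh : ∀ H ∈ Hs, (c + g) * ((cyl (P := P) (C ∪ H)).card : ℝ) ≤
      ((cyl (P := P) (C ∪ H) ∩ Z).card : ℝ))
    (hD : ∀ H ∈ Hs, ∑ H' ∈ Hs.filter (fun H' => ¬ Disjoint H H'), (P : ℝ) ^ (H ∩ H').card ≤ D) :
    g ^ 2 * Hs.card ≤ D := by
  set Y := cyl (P := P) C with hYdef
  set n : ℝ := (Hs.card : ℝ) with hn
  set q : ℝ := (P : ℝ) ^ h with hq
  set y : ℝ := (Y.card : ℝ) with hy
  have hy0 : 0 < y := by rw [hy]; exact_mod_cast cyl_card_pos hP C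
  have hq0 : 0 < q := by rw [hq]; positivity
  set deg : Omega Q P → ℝ := fun w => ((Hs.filter fun H => w ∈ cyl H).card : ℝ) with hdeg
  set μ := n / q with hμ
  have hone : ∀ H ∈ Hs, ((Y ∩ cyl H).card : ℝ) = y / q := fun H hh => by
    rw [hYdef, ← cyl_union, eq_div_iff hq0.ne', hq, ← (hH H hh).1, cyl_inter_card hP (hH H hh).2]
  have htot : ∑ w ∈ Y, deg w = n * (y / q) := by
    rw [hdeg, sum_ind, sum_congr rfl hone, sum_const, nsmul_eq_mul]
  have hsq : ∑ w ∈ Y, deg w ^ 2 = ∑ H ∈ Hs, ∑ H' ∈ Hs, ((Y ∩ cyl (H ∪ H')).card : ℝ) := by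
    simp only [hdeg, card_filter, Nat.cast_sum, sq, sum_mul_sum]
    rw [sum_comm]
    refine sum_congr rfl fun H _ => ?_
    rw [sum_comm]
    refine sum_congr rfl fun H' _ => ?_
    rw [cyl_union, ← filter_mem_eq_inter, card_filter]
    push_cast
    refine sum_congr rfl fun w _ => ?_
    simp only [mem_inter]
    split_ifs <;> simp_all
  have hpair : ∀ H ∈ Hs, ∀ H' ∈ Hs, ((Y ∩ cyl (H ∪ H')).card : ℝ) - y / q ^ 2 ≤
      if Disjoint H H' then 0 else y / q ^ 2 * (P : ℝ) ^ (H ∩ H').card := by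
    intro H hh H' hh'
    have hd : Disjoint C (H ∪ H') := disjoint_union_right.2 ⟨(hH H hh).2, (hH H' hh').2⟩
    have h1 : ((Y ∩ cyl (H ∪ H')).card : ℝ) * (P : ℝ) ^ (H ∪ H').card = y := by
      rw [hYdef, ← cyl_union]; exact cyl_inter_card hP hd
    have h2 : (P : ℝ) ^ (H ∪ H').card * (P : ℝ) ^ (H ∩ H').card = q ^ 2 := by
      rw [← pow_add, card_union_add_card_inter, (hH H hh).1, (hH H' hh').1, pow_add, hq, sq]
    have h3 : ((Y ∩ cyl (H ∪ H')).card : ℝ) = y / q ^ 2 * (P : ℝ) ^ (H ∩ H').card := by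
      have : (0:ℝ) < (P : ℝ) ^ (H ∪ H').card := by positivity
      rw [← h1, ← h2]; field_simp
    split_ifs with hdis
    · rw [h3, disjoint_iff_inter_eq_empty.1 hdis]; simp
    · rw [h3]; linarith [div_nonneg hy0.le (sq_nonneg q)]
  have hvar : ∑ w ∈ Y, (deg w - μ) ^ 2 ≤ y / q ^ 2 * (n * D) := by
    have e : ∑ w ∈ Y, (deg w - μ) ^ 2 =
        ∑ H ∈ Hs, ∑ H' ∈ Hs, (((Y ∩ cyl (H ∪ H')).card : ℝ) - y / q ^ 2) := by
      simp only [sub_sq, sum_sub_distrib, sum_add_distrib, ← hsq, ← mul_sum, ← sum_mul, htot,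
        sum_const, nsmul_eq_mul]
      rw [hμ, hy, hn]
      field_simp
      ring
    rw [e]
    calc _ ≤ ∑ H ∈ Hs, y / q ^ 2 * D := by
          refine sum_le_sum fun H hh => (sum_le_sum fun H' hh' => hpair H hh H' hh').trans ?_
          rw [sum_ite, sum_const_zero, zero_add, ← mul_sum]
          exact mul_le_mul_of_nonneg_left (hD H hh) (by positivity)
      _ = _ := by rw [sum_const, nsmul_eq_mul]; ring
  have hlo : g * μ * y ≤ ∑ w ∈ Y ∩ Z, (deg w - μ) := by
    have h1 : (c + g) * (n * (y / q)) ≤ ∑ w ∈ Y ∩ Z, deg w := by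
      rw [hdeg, sum_ind, ← nsmul_eq_mul, ← sum_const, mul_sum]
      refine sum_le_sum fun H hh => ?_
      have := hhigh H hh
      rw [cyl_union, hone H hh] at this
      rwa [inter_right_comm]
    have h2 : μ * ((Y ∩ Z).card : ℝ) ≤ μ * (c * y) :=
      mul_le_mul_of_nonneg_left hlow (by positivity)
    rw [sum_sub_distrib, sum_const, nsmul_eq_mul]
    rw [show n * (y / q) = μ * y by rw [hμ]; ring] at h1
    linarith
  have key := sq_sum_sub_le Y (Y ∩ Z) inter_subset_left deg μ
  have h0 : 0 ≤ g * μ * y := by positivity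
  have h4 : (g * μ * y) ^ 2 ≤ y * (y / q ^ 2 * (n * D)) :=
    ((pow_le_pow_left₀ h0 hlo 2).trans key).trans (mul_le_mul_of_nonneg_left hvar hy0.le)
  rcases eq_or_lt_of_le (Nat.cast_nonneg Hs.card : (0:ℝ) ≤ n) with hn0 | hn0
  · rw [show n = 0 from hn0.symm, mul_zero]; exact hD0
  rw [hμ] at h4
  have h5 : y ^ 2 * n / q ^ 2 * (g ^ 2 * n) ≤ y ^ 2 * n / q ^ 2 * D := by
    refine le_trans (le_of_eq ?_) (h4.trans (le_of_eq ?_)) <;> ring
  exact le_of_mul_le_mul_left h5 (by positivity)

theorem minDenseStmt : MinDenseStmt := by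
  intro Q P M hP Z B c g hg hg1 hc
  set s : ℝ := 2 ^ M / g ^ 2 with hs
  have hs1 : 1 ≤ s := by
    rw [hs, le_div_iff₀ (by positivity), one_mul]
    exact (pow_le_one₀ hg.le hg1).trans (one_le_pow₀ one_le_two)
  suffices key : ∀ h : ℕ, ∀ (U : Finset (Fin Q)) (r : ℕ), r ≤ M → U.card + h = r →
      (((minDense Z B c M).filter fun F => F.card = r ∧ U ⊆ F).card : ℝ) ≤ s ^ h * (P : ℝ) ^ h by
    intro U r hr hU
    refine (key (r - U.card) U r hr (by omega)).trans ?_
    exact mul_le_mul_of_nonneg_right (pow_le_pow_right₀ hs1 (by omega)) (by positivity)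
  intro h
  induction h using Nat.strong_induction_on with
  | _ h ih =>
    intro U r hr hUr
    set Fs := (minDense Z B c M).filter fun F => F.card = r ∧ U ⊆ F with hFs
    rcases h.eq_zero_or_pos with rfl | hpos
    · have : Fs ⊆ {U} := fun F hF => by
        simp only [hFs, mem_filter] at hF
        exact mem_singleton.2 (eq_of_subset_of_card_le hF.2.2 (by omega)).symm
      simpa using card_le_card this
    rcases Fs.eq_empty_or_nonempty with he | ⟨F0, hF0⟩
    · rw [he]; simp; positivity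
    have hmem : ∀ F ∈ Fs, Disjoint F B ∧ DenseAt Z B c F ∧ (∀ G, G ⊂ F → ¬ DenseAt Z B c G) ∧
        F.card = r ∧ U ⊆ F := fun F hF => by
      simp only [hFs, minDense, mem_filter, mem_univ, true_and] at hF
      exact ⟨hF.1.2.1, hF.1.2.2.1, hF.1.2.2.2, hF.2.1, hF.2.2⟩
    have hssub : U ⊂ F0 := (hmem F0 hF0).2.2.2.2.ssubset_of_ne fun e => by
      have := (hmem F0 hF0).2.2.2.1; rw [← e] at this; omega
    have hnot := (hmem F0 hF0).2.2.1 U hssub
    unfold DenseAt at hnot
    set Hs := Fs.image fun F => F \ U with hHs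
    have hcard : Hs.card = Fs.card := card_image_of_injOn fun F hF F' hF' e => by
      rw [← union_sdiff_of_subset (hmem F hF).2.2.2.2, ← union_sdiff_of_subset (hmem F' hF').2.2.2.2]
      exact congrArg (U ∪ ·) e
    have hcomb : ∀ H ∈ Hs, U ∪ H ∈ Fs ∧ Disjoint U H ∧ H.card = h := fun H hh => by
      obtain ⟨F, hF, rfl⟩ := mem_image.1 hh
      obtain ⟨-, -, -, hr', hsub⟩ := hmem F hF
      refine ⟨by rwa [union_sdiff_of_subset hsub], disjoint_sdiff, ?_⟩
      rw [card_sdiff_of_subset hsub]; omega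
    set D : ℝ := 2 ^ h * (s ^ (h - 1) * (P : ℝ) ^ h) with hDdef
    have hlink := link_card hP (B ∪ U) Z Hs h (c U.card) g D hg.le (by positivity)
      (fun H hh => by
        obtain ⟨h1, h2, h3⟩ := hcomb H hh
        exact ⟨h3, disjoint_union_left.2
          ⟨(disjoint_union_left.1 (hmem _ h1).1).2.symm, h2⟩⟩)
      (not_le.1 hnot).le
      (fun H hh => by
        obtain ⟨h1, h2, h3⟩ := hcomb H hh
        have hd := (hmem _ h1).2.1
        unfold DenseAt at hd
        rw [← union_assoc] at hd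
        refine le_trans (mul_le_mul_of_nonneg_right ?_ (Nat.cast_nonneg _)) hd
        have e := (hmem _ h1).2.2.2.1
        rw [e]
        exact hc _ _ (by omega) hr)
      ?_
    · rw [hcard] at hlink
      have e : D ≤ g ^ 2 * (s ^ h * (P : ℝ) ^ h) := by
        have : g ^ 2 * s = 2 ^ M := by rw [hs]; field_simp
        rw [show s ^ h = s * s ^ (h - 1) by rw [← pow_succ', Nat.sub_add_cancel hpos],
          show g ^ 2 * (s * s ^ (h - 1) * (P : ℝ) ^ h) = g ^ 2 * s * (s ^ (h - 1) * (P : ℝ) ^ h)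
            by ring, this, hDdef]
        exact mul_le_mul_of_nonneg_right (pow_le_pow_right₀ one_le_two (by omega)) (by positivity)
      exact le_of_mul_le_mul_left (hlink.trans e) (by positivity)
    intro H hh
    obtain ⟨-, -, hHc⟩ := hcomb H hh
    have bound : ∀ W ∈ H.powerset.filter (fun W => W.Nonempty),
        ((Hs.filter fun H' => W ⊆ H').card : ℝ) * (P : ℝ) ^ W.card ≤
          s ^ (h - 1) * (P : ℝ) ^ h := by
      intro W hW
      simp only [mem_filter, mem_powerset] at hW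
      have hWh : W.card ≤ h := hHc ▸ card_le_card hW.1
      have hWpos := hW.2.card_pos
      have hdis : Disjoint U W := (hcomb H hh).2.1.mono_right hW.1
      have hle : (Hs.filter fun H' => W ⊆ H').card ≤
          ((minDense Z B c M).filter fun F => F.card = r ∧ U ∪ W ⊆ F).card := by
        refine card_le_card_of_injOn (fun H' => U ∪ H') (fun H' hh' => ?_) (fun A hA A' hA' e => ?_)
        · simp only [mem_coe, mem_filter] at hh' ⊢
          have := (hcomb H' hh'.1).1
          simp only [hFs, mem_filter] at this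
          exact ⟨this.1, this.2.1, union_subset_union_right hh'.2⟩
        · simp only [mem_coe, mem_filter] at hA hA'
          have e1 := congrArg (· \ U) e
          simp only [union_sdiff_left] at e1
          rwa [sdiff_eq_self_of_disjoint (hcomb A hA.1).2.1.symm,
            sdiff_eq_self_of_disjoint (hcomb A' hA'.1).2.1.symm] at e1
      have hi := ih (h - W.card) (by omega) (U ∪ W) r hr
        (by rw [card_union_of_disjoint hdis]; omega)
      calc _ ≤ s ^ (h - W.card) * (P : ℝ) ^ (h - W.card) * (P : ℝ) ^ W.card := by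
            gcongr; exact le_trans (by exact_mod_cast hle) hi
        _ ≤ _ := by
            rw [mul_assoc, ← pow_add, Nat.sub_add_cancel hWh]
            exact mul_le_mul_of_nonneg_right (pow_le_pow_right₀ hs1 (by omega)) (by positivity)
    calc ∑ H' ∈ Hs.filter (fun H' => ¬ Disjoint H H'), (P : ℝ) ^ (H ∩ H').card
        ≤ ∑ H' ∈ Hs, ∑ W ∈ H.powerset.filter (fun W => W.Nonempty),
            if W ⊆ H' then (P : ℝ) ^ W.card else 0 := by
          rw [sum_filter]
          refine sum_le_sum fun H' _ => ?_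
          by_cases hd : Disjoint H H'
          · rw [if_neg (not_not.2 hd)]
            exact sum_nonneg fun W _ => by split_ifs <;> positivity
          · rw [if_pos hd]
            have hne : (H ∩ H').Nonempty := not_disjoint_iff_nonempty_inter.1 hd
            refine le_trans (le_of_eq ?_) (single_le_sum (fun W _ => ?_) (a := H ∩ H') ?_)
            · rw [if_pos inter_subset_right]
            · split_ifs <;> positivity
            · simp [mem_filter, hne]
      _ = ∑ W ∈ H.powerset.filter (fun W => W.Nonempty),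
            ((Hs.filter fun H' => W ⊆ H').card : ℝ) * (P : ℝ) ^ W.card := by
          rw [sum_comm]
          refine sum_congr rfl fun W _ => ?_
          rw [← sum_filter, sum_const, nsmul_eq_mul]
      _ ≤ ∑ W ∈ H.powerset.filter (fun W => W.Nonempty), s ^ (h - 1) * (P : ℝ) ^ h :=
          sum_le_sum bound
      _ ≤ D := by
          rw [sum_const, nsmul_eq_mul, hDdef]
          refine mul_le_mul_of_nonneg_right ?_ (by positivity)
          have := card_filter_le H.powerset (fun W => W.Nonempty)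
          rw [card_powerset, hHc] at this
          exact_mod_cast this

end Vale.Agent.P126.Neg
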