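import Vale.Agent.P126.Neg.Defs

/-!
The pairs lemma. A pattern is heavy if its average mass beats a threshold falling geometrically with
its size. Take the largest size at which heavy patterns carry a fair mass and drop the tuples with
larger heavy patterns: the common heavy part collides by Cauchy-Schwarz, and an edge that blocks a
colliding pair meets the light part of one tuple, which the degree bound makes rare.
-/

namespace Vale.Agent.P126.Neg

open scoped Classical
open Finset

/-- The tuples that agree with `a` on the positions `I`. -/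
noncomputable def agree {Q n : ℕ} (I : Finset (Fin n)) (a : Fin n → Fin Q) :
    Finset (Fin n → Fin Q) :=
  univ.filter fun b => ∀ p ∈ I, b p = a p

/-- The mass of the pattern of `a` on `I`. -/
noncomputable def patMass {Q n : ℕ} (w : (Fin n → Fin Q) → ℝ) (I : Finset (Fin n))
    (a : Fin n → Fin Q) : ℝ :=
  ∑ b ∈ agree I a, w b

/-- An edge inside two tuples that agree on `I`, not inside the second one, is read off a nonempty
set of positions outside `I` of the first and off its trace on the second. -/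
theorem exists_pattern {Q n : ℕ} (I : Finset (Fin n)) (a b : Fin n → Fin Q)
    (hab : ∀ p ∈ I, a p = b p) (F : Finset (Fin Q)) (hF : F ⊆ img a ∪ img b)
    (hb : ¬ F ⊆ img b) :
    ∃ A : Finset (Fin n), A.Nonempty ∧ Disjoint A I ∧ (∀ p ∈ A, a p ∈ F) ∧
      F.card = (F ∩ img b).card + A.card := by
  set W := F \ img b with hW
  have hpos : ∀ x ∈ W, ∃ p, p ∉ I ∧ a p = x := by
    intro x hx
    rw [hW, mem_sdiff] at hx
    have hxa : x ∈ img a := (mem_union.1 (hF hx.1)).resolve_right hx.2
    obtain ⟨p, -, rfl⟩ := mem_image.1 hxa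
    exact ⟨p, fun hp => hx.2 (mem_image.2 ⟨p, mem_univ p, (hab p hp).symm⟩), rfl⟩
  choose f hf using hpos
  refine ⟨W.attach.image fun x => f x.1 x.2, ?_, ?_, ?_, ?_⟩
  · exact (attach_nonempty_iff.2 (sdiff_nonempty.2 hb)).image _
  · refine disjoint_left.2 fun p hp => ?_
    obtain ⟨x, -, rfl⟩ := mem_image.1 hp
    exact (hf x.1 x.2).1
  · intro p hp
    obtain ⟨x, -, rfl⟩ := mem_image.1 hp
    rw [(hf x.1 x.2).2]
    exact (mem_sdiff.1 x.2).1
  · rw [card_image_of_injective, card_attach, hW, card_inter_add_card_sdiff]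
    intro x y hxy
    refine Subtype.ext ?_
    rw [← (hf x.1 x.2).2, ← (hf y.1 y.2).2]
    exact congrArg a hxy

/-- The tuples that agree with `b` on `I` and are blocked by an edge not inside `b` have small mass
for a measure that is light on every larger pattern. -/
theorem blocked_le {Q P M n : ℕ} {θ ω S t : ℝ} (L : Finset (Finset (Fin Q))) (hdeg : DegOK P S M L)
    (hsize : ∀ F ∈ L, F.card ≤ M) (hn : 2 * n ≤ M) (hθ : 0 < θ) (hω : 1 ≤ ω)
    (hPω : (P : ℝ) ≤ ω * θ) (hS : 0 ≤ S) (ht : 0 ≤ t) (I : Finset (Fin n))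
    (b : Fin n → Fin Q) (hb : Free L (img b)) (w : (Fin n → Fin Q) → ℝ) (hw : ∀ a, 0 ≤ w a)
    (hlight : ∀ J : Finset (Fin n), I.card < J.card → ∀ a, patMass w J a ≤ t * (1 / θ) ^ J.card) :
    ∑ a ∈ (agree I b).filter (fun a => ¬ Free L (img a ∪ img b)), w a
      ≤ (4 * (M + 1 : ℝ)) ^ M * (S * ω ^ M) * t * (1 / θ) ^ I.card := by
  -- the possible patterns
  set As := univ.filter fun A : Finset (Fin n) => A.Nonempty ∧ Disjoint A I with hAs
  set Fs := fun (U : Finset (Fin Q)) (A : Finset (Fin n)) =>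
    L.filter (fun F => F.card = U.card + A.card ∧ U ⊆ F) with hFs
  set reps := fun (A : Finset (Fin n)) (F : Finset (Fin Q)) =>
    Fintype.piFinset (fun p => if p ∈ A then F else {b p}) with hreps
  have cover : ∀ a ∈ (agree I b).filter (fun a => ¬ Free L (img a ∪ img b)),
      ∃ U ∈ (img b).powerset, ∃ A ∈ As, ∃ F ∈ Fs U A, ∃ c ∈ reps A F, a ∈ agree (I ∪ A) c := by
    intro a ha
    simp only [agree, mem_filter, mem_univ, true_and, Free, not_forall, not_not] at ha
    obtain ⟨hab, F, hFL, hF⟩ := ha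
    obtain ⟨A, h1, h2, h3, h4⟩ := exists_pattern I a b hab F hF (hb F hFL)
    refine ⟨F ∩ img b, mem_powerset.2 inter_subset_right, A, mem_filter.2 ⟨mem_univ _, h1, h2⟩,
      F, mem_filter.2 ⟨hFL, h4, inter_subset_left⟩,
      fun p => if p ∈ A then a p else b p, ?_, ?_⟩
    · refine Fintype.mem_piFinset.2 fun p => ?_
      by_cases hp : p ∈ A <;> simp [hp, h3]
    · refine mem_filter.2 ⟨mem_univ _, fun p hp => ?_⟩
      by_cases hpA : p ∈ A
      · simp [hpA]
      · simp only [hpA, if_false]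
        exact hab p ((mem_union.1 hp).resolve_right hpA)
  calc ∑ a ∈ (agree I b).filter (fun a => ¬ Free L (img a ∪ img b)), w a
      ≤ ∑ U ∈ (img b).powerset, ∑ A ∈ As, ∑ F ∈ Fs U A, ∑ c ∈ reps A F,
          patMass w (I ∪ A) c := by
        set B := (agree I b).filter (fun a => ¬ Free L (img a ∪ img b))
        set cnt := fun a : Fin n → Fin Q => ∑ U ∈ (img b).powerset, ∑ A ∈ As, ∑ F ∈ Fs U A,
          ∑ c ∈ reps A F, if a ∈ agree (I ∪ A) c then w a else 0
        have hnn : ∀ a, ∀ A c, (0 : ℝ) ≤ if a ∈ agree (I ∪ A) c then w a else 0 := by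
          intro a A c; split_ifs <;> [exact hw a; exact le_rfl]
        calc ∑ a ∈ B, w a ≤ ∑ a ∈ B, cnt a := by
              refine sum_le_sum fun a ha => ?_
              obtain ⟨U, hU, A, hA, F, hF, c, hc, hm⟩ := cover a ha
              refine le_trans ?_ (single_le_sum (fun U _ => sum_nonneg fun A _ => sum_nonneg
                fun F _ => sum_nonneg fun c _ => hnn a A c) hU)
              refine le_trans ?_ (single_le_sum (fun A _ => sum_nonneg
                fun F _ => sum_nonneg fun c _ => hnn a A c) hA)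
              refine le_trans ?_ (single_le_sum (fun F _ => sum_nonneg fun c _ => hnn a A c) hF)
              refine le_trans ?_ (single_le_sum (fun c _ => hnn a A c) hc)
              rw [if_pos hm]
          _ ≤ ∑ a, cnt a := sum_le_univ_sum_of_nonneg fun a => sum_nonneg fun U _ =>
              sum_nonneg fun A _ => sum_nonneg fun F _ => sum_nonneg fun c _ => hnn a A c
          _ = _ := by
              simp only [cnt, patMass]
              rw [sum_comm]
              refine sum_congr rfl fun U _ => ?_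
              rw [sum_comm]
              refine sum_congr rfl fun A _ => ?_
              rw [sum_comm]
              refine sum_congr rfl fun F _ => ?_
              rw [sum_comm]
              exact sum_congr rfl fun c _ => by rw [sum_ite_mem, univ_inter]
    _ ≤ ∑ _U ∈ (img b).powerset, ∑ _A ∈ As,
          (M + 1 : ℝ) ^ n * (S * ω ^ M) * t * (1 / θ) ^ I.card := by
        refine sum_le_sum fun U hU => sum_le_sum fun A hA => ?_
        obtain ⟨hne, hdis⟩ := (mem_filter.1 hA).2
        have hUn : U.card ≤ n := (card_le_card (mem_powerset.1 hU)).trans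
          (card_image_le.trans_eq (Fintype.card_fin n))
        have hAn : A.card ≤ n := (card_le_univ A).trans_eq (Fintype.card_fin n)
        have hcard : (I ∪ A).card = I.card + A.card := card_union_of_disjoint hdis.symm
        have hF : ((Fs U A).card : ℝ) ≤ S * (P : ℝ) ^ A.card := by
          have := hdeg U (U.card + A.card) (by omega) (Nat.le_add_right _ _)
          rwa [Nat.add_sub_cancel_left] at this
        calc ∑ F ∈ Fs U A, ∑ c ∈ reps A F, patMass w (I ∪ A) c
            ≤ ∑ _F ∈ Fs U A, (M + 1 : ℝ) ^ n * (t * (1 / θ) ^ (I.card + A.card)) := by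
              refine sum_le_sum fun F hFm => ?_
              refine (sum_le_card_nsmul _ _ (t * (1 / θ) ^ (I.card + A.card)) fun c _ => ?_).trans ?_
              · rw [← hcard]
                exact hlight _ (by have := hne.card_pos; omega) c
              · rw [nsmul_eq_mul]
                refine mul_le_mul_of_nonneg_right ?_ (by positivity)
                have hsz : (reps A F).card ≤ (M + 1) ^ n := by
                  rw [Fintype.card_piFinset]
                  refine (prod_le_pow_card _ _ (M + 1) fun p _ => ?_).trans_eq (by simp)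
                  by_cases hp : p ∈ A
                  · simpa [hp] using (hsize F (mem_filter.1 hFm).1).trans (Nat.le_succ M)
                  · simp [hp]
                exact_mod_cast hsz
          _ = ((Fs U A).card : ℝ) * ((M + 1 : ℝ) ^ n * (t * (1 / θ) ^ (I.card + A.card))) := by
              rw [sum_const, nsmul_eq_mul]
          _ ≤ S * (P : ℝ) ^ A.card *
                ((M + 1 : ℝ) ^ n * (t * (1 / θ) ^ (I.card + A.card))) :=
              mul_le_mul_of_nonneg_right hF (by positivity)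
          _ = (M + 1 : ℝ) ^ n * S * t * (1 / θ) ^ I.card * ((P : ℝ) / θ) ^ A.card := by
              rw [pow_add, div_eq_mul_one_div (P : ℝ), mul_pow]; ring
          _ ≤ (M + 1 : ℝ) ^ n * S * t * (1 / θ) ^ I.card * ω ^ M := by
              refine mul_le_mul_of_nonneg_left ?_ (by positivity)
              calc ((P : ℝ) / θ) ^ A.card ≤ ω ^ A.card :=
                    pow_le_pow_left₀ (by positivity) ((div_le_iff₀ hθ).2 hPω) _
                _ ≤ ω ^ M := pow_le_pow_right₀ hω (by omega)
          _ = _ := by ring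
    _ = ((img b).powerset.card : ℝ) * ((As.card : ℝ) *
          ((M + 1 : ℝ) ^ n * (S * ω ^ M) * t * (1 / θ) ^ I.card)) := by
        rw [sum_const, sum_const, nsmul_eq_mul, nsmul_eq_mul]
    _ ≤ (2 : ℝ) ^ n * ((2 : ℝ) ^ n *
          ((M + 1 : ℝ) ^ n * (S * ω ^ M) * t * (1 / θ) ^ I.card)) := by
        have h1 : ((img b).powerset.card : ℝ) ≤ (2 : ℝ) ^ n := by
          rw [card_powerset]
          exact_mod_cast Nat.pow_le_pow_right two_pos (card_image_le.trans_eq (Fintype.card_fin n))
        have h2 : (As.card : ℝ) ≤ (2 : ℝ) ^ n := by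
          have := card_le_univ As
          rw [Fintype.card_finset, Fintype.card_fin] at this
          exact_mod_cast this
        gcongr
    _ = (4 * (M + 1 : ℝ)) ^ n * (S * ω ^ M) * t * (1 / θ) ^ I.card := by
        rw [show (4 : ℝ) * (M + 1) = 2 * 2 * (M + 1) by ring, mul_pow, mul_pow]; ring
    _ ≤ _ := by
        refine mul_le_mul_of_nonneg_right (mul_le_mul_of_nonneg_right (mul_le_mul_of_nonneg_right
          (pow_le_pow_right₀ ?_ (by omega)) (by positivity)) ht) (by positivity)
        linarith [(Nat.cast_nonneg M : (0 : ℝ) ≤ M)]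

/-- Cauchy-Schwarz on the classes of agreement: few heavy classes collide often. -/
theorem collide_ge {Q n : ℕ} (I : Finset (Fin n)) (w m : (Fin n → Fin Q) → ℝ) (T : ℝ) (hT : 0 < T)
    (hm : ∀ a, 0 ≤ m a) (hmw : ∀ a, m a ≤ w a) (hheavy : ∀ a, m a ≠ 0 → T ≤ patMass w I a) :
    (∑ a, m a) ^ 2 * T ≤ (∑ a, w a) * ∑ a, ∑ b ∈ agree I a, m a * m b := by
  set key : (Fin n → Fin Q) → (↥I → Fin Q) := fun a p => a p.1 with hkey
  have hag : ∀ a, agree I a = univ.filter fun b => key b = key a := by
    intro a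
    ext b
    simp [agree, hkey, funext_iff]
  set H := (univ.filter fun a => m a ≠ 0).image key with hH
  set g := fun v => ∑ a ∈ univ.filter (fun a => key a = v), m a with hg
  have hsum : ∑ v ∈ H, g v = ∑ a, m a := by
    rw [hg, ← sum_fiberwise_of_maps_to (g := key) (t := univ) (fun a _ => mem_univ _) m]
    refine sum_subset (subset_univ H) fun v _ hv => sum_eq_zero fun a ha => ?_
    by_contra h0
    exact hv (mem_image.2 ⟨a, mem_filter.2 ⟨mem_univ _, h0⟩, (mem_filter.1 ha).2⟩)
  have hsq : ∑ v ∈ H, g v ^ 2 ≤ ∑ a, ∑ b ∈ agree I a, m a * m b := by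
    calc ∑ v ∈ H, g v ^ 2 ≤ ∑ v, g v ^ 2 := sum_le_univ_sum_of_nonneg fun v => sq_nonneg _
      _ = ∑ a, ∑ b ∈ agree I a, m a * m b := by
          rw [← sum_fiberwise_of_maps_to (g := key) (t := univ) (fun a _ => mem_univ _)
            (fun a => ∑ b ∈ agree I a, m a * m b)]
          refine sum_congr rfl fun v _ => ?_
          rw [hg, sq, sum_mul_sum]
          refine sum_congr rfl fun a ha => ?_
          rw [hag, (mem_filter.1 ha).2]
  have hcnt : (H.card : ℝ) * T ≤ ∑ a, w a := by
    calc (H.card : ℝ) * T = ∑ _v ∈ H, T := by rw [sum_const, nsmul_eq_mul]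
      _ ≤ ∑ v ∈ H, ∑ a ∈ univ.filter (fun a => key a = v), w a := by
          refine sum_le_sum fun v hv => ?_
          obtain ⟨a, ha, rfl⟩ := mem_image.1 hv
          have := hheavy a (mem_filter.1 ha).2
          rwa [patMass, hag] at this
      _ ≤ ∑ v, ∑ a ∈ univ.filter (fun a => key a = v), w a :=
          sum_le_univ_sum_of_nonneg fun v => sum_nonneg fun a _ => (hm a).trans (hmw a)
      _ = ∑ a, w a := sum_fiberwise_of_maps_to (fun a _ => mem_univ _) w
  have hcs := sq_sum_le_card_mul_sum_sq (s := H) (f := g)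
  rw [hsum] at hcs
  calc (∑ a, m a) ^ 2 * T ≤ ((H.card : ℝ) * ∑ v ∈ H, g v ^ 2) * T :=
        mul_le_mul_of_nonneg_right hcs hT.le
    _ = ((H.card : ℝ) * T) * ∑ v ∈ H, g v ^ 2 := by ring
    _ ≤ (∑ a, w a) * ∑ a, ∑ b ∈ agree I a, m a * m b :=
        mul_le_mul hcnt hsq (sum_nonneg fun v _ => sq_nonneg _)
          (sum_nonneg fun a _ => (hm a).trans (hmw a))

/-- Reordering a fourfold sum. -/
theorem reorder4 {α β γ δ R : Type*} [Fintype α] [Fintype β] [Fintype γ] [Fintype δ]
    [AddCommMonoid R] (f : α → β → γ → δ → R) :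
    ∑ k, ∑ b, ∑ a, ∑ j, f j k a b = ∑ j, ∑ k, ∑ a, ∑ b, f j k a b := by
  rw [sum_congr rfl fun k _ => (sum_congr rfl fun b _ => sum_comm).trans sum_comm, sum_comm]
  exact sum_congr rfl fun j _ => sum_congr rfl fun k _ => sum_comm

/-- A colliding pair is good, or blocked for one of its two lists. -/
theorem split_pairs {Q n h : ℕ} (I : Finset (Fin n)) (L : Fin h → Finset (Finset (Fin Q)))
    (μ m : Fin h → (Fin n → Fin Q) → ℝ) (hm0 : ∀ j a, 0 ≤ m j a) (hmle : ∀ j a, m j a ≤ μ j a) :
    ∑ a, ∑ b ∈ agree I a, (∑ j, m j a) * (∑ k, m k b) ≤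
      (∑ j, ∑ k, ∑ a, ∑ b ∈ univ.filter (fun b =>
        (∀ p ∈ I, b p = a p) ∧ Free (L j) (img a ∪ img b) ∧ Free (L k) (img a ∪ img b)),
          μ j a * μ k b) +
      2 * ∑ k, ∑ b, m k b *
        ∑ a ∈ (agree I b).filter (fun a => ¬ Free (L k) (img a ∪ img b)), ∑ j, m j a := by
  have mem : ∀ a b : Fin n → Fin Q, b ∈ agree I a ↔ ∀ p ∈ I, b p = a p := by simp [agree]
  set Y := ∑ k, ∑ b, m k b *
    ∑ a ∈ (agree I b).filter (fun a => ¬ Free (L k) (img a ∪ img b)), ∑ j, m j a with hY
  set u := fun (j k : Fin h) (a b : Fin n → Fin Q) =>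
    if (∀ p ∈ I, b p = a p) ∧ ¬ Free (L k) (img a ∪ img b) then m j a * m k b else 0 with hu
  set v := fun (j k : Fin h) (a b : Fin n → Fin Q) =>
    if (∀ p ∈ I, b p = a p) ∧ ¬ Free (L j) (img a ∪ img b) then m j a * m k b else 0 with hv
  have hY1 : Y = ∑ j, ∑ k, ∑ a, ∑ b, u j k a b := by
    refine Eq.trans ?_ (reorder4 u)
    refine sum_congr rfl fun k _ => sum_congr rfl fun b _ => ?_
    rw [mul_sum, agree, filter_filter, sum_filter]
    refine sum_congr rfl fun a _ => ?_
    by_cases hab : (∀ p ∈ I, a p = b p) ∧ ¬ Free (L k) (img a ∪ img b)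
    · rw [if_pos hab, mul_sum]
      refine sum_congr rfl fun j _ => ?_
      rw [hu]
      simp only
      rw [if_pos ⟨fun p hp => (hab.1 p hp).symm, hab.2⟩, mul_comm]
    · rw [if_neg hab, sum_eq_zero fun j _ => ?_]
      exact if_neg fun hc => hab ⟨fun p hp => (hc.1 p hp).symm, hc.2⟩
  have hY2 : Y = ∑ j, ∑ k, ∑ a, ∑ b, v j k a b := by
    rw [hY1, sum_comm]
    refine sum_congr rfl fun j _ => sum_congr rfl fun k _ => ?_
    rw [sum_comm]
    refine sum_congr rfl fun a _ => sum_congr rfl fun b _ => ?_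
    simp only [hu, hv]
    by_cases hc : (∀ p ∈ I, b p = a p) ∧ ¬ Free (L j) (img a ∪ img b)
    · rw [if_pos hc, if_pos ⟨fun p hp => (hc.1 p hp).symm, by rw [union_comm]; exact hc.2⟩,
        mul_comm]
    · rw [if_neg hc, if_neg fun hd =>
        hc ⟨fun p hp => (hd.1 p hp).symm, by rw [union_comm]; exact hd.2⟩]
  have hpt : ∀ j k a b, (if ∀ p ∈ I, b p = a p then m j a * m k b else 0) ≤
      (if (∀ p ∈ I, b p = a p) ∧ Free (L j) (img a ∪ img b) ∧ Free (L k) (img a ∪ img b)
        then μ j a * μ k b else 0) + u j k a b + v j k a b := by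
    intro j k a b
    have h1 : m j a * m k b ≤ μ j a * μ k b :=
      mul_le_mul (hmle j a) (hmle k b) (hm0 k b) ((hm0 j a).trans (hmle j a))
    have h2 : 0 ≤ m j a * m k b := mul_nonneg (hm0 j a) (hm0 k b)
    simp only [hu, hv]
    split_ifs <;> first | linarith | tauto
  calc ∑ a, ∑ b ∈ agree I a, (∑ j, m j a) * (∑ k, m k b)
      = ∑ j, ∑ k, ∑ a, ∑ b, if ∀ p ∈ I, b p = a p then m j a * m k b else 0 := by
        rw [← reorder4 (fun j k a b => if ∀ p ∈ I, b p = a p then m j a * m k b else 0)]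
        simp only [agree, sum_filter, sum_mul_sum]
        rw [sum_comm (γ := Fin h) (α := Fin n → Fin Q), sum_comm]
        refine sum_congr rfl fun b _ => ?_
        rw [sum_comm]
        refine sum_congr rfl fun a _ => ?_
        by_cases hc : ∀ p ∈ I, b p = a p
        · simp only [if_pos hc]; exact sum_comm
        · simp only [if_neg hc, sum_const_zero]
    _ ≤ _ := by
        rw [two_mul]
        nth_rewrite 2 [hY2]
        rw [hY1]
        simp only [sum_filter, ← sum_add_distrib]
        exact sum_le_sum fun j _ => sum_le_sum fun k _ => sum_le_sum fun a _ =>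
          sum_le_sum fun b _ => (hpt j k a b).trans_eq (add_assoc _ _ _)

theorem pairsStmt : PairsStmt := by
  intro M
  -- `C₀` absorbs the counts, `q` is the decay of the mass thresholds
  set C₀ : ℕ := (4 * (M + 1)) ^ M with hC₀
  set D : ℕ := 2 ^ (M + 1) with hD
  refine ⟨16 * C₀ * D ^ (2 * M), (M + 1) * M + 1,
    Nat.one_le_iff_ne_zero.2 (by positivity), ?_⟩
  intro Q P h n θ ω S hP hh hθ hn hω hPω hS L μ hL hμ
  have hμ0 : ∀ j a, 0 ≤ μ j a := fun j => (hμ j).1.1
  set tot := fun a => ∑ j, μ j a with htot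
  have htot0 : ∀ a, 0 ≤ tot a := fun a => sum_nonneg fun j _ => hμ0 j a
  have htot1 : ∑ a, tot a = h := by
    rw [htot, sum_comm]
    simp [fun j => (hμ j).2.1]
  set B : ℝ := 16 * C₀ * (D : ℝ) ^ (2 * M) * (S * ω ^ M) with hB
  have hC0 : (1 : ℝ) ≤ C₀ := by
    exact_mod_cast (show 1 ≤ C₀ from Nat.one_le_pow _ _ (by omega))
  have hD1 : (1 : ℝ) ≤ D := by exact_mod_cast (show 1 ≤ D from Nat.one_le_two_pow)
  have hSω : (1 : ℝ) ≤ S * ω ^ M := one_le_mul_of_one_le_of_one_le hS (one_le_pow₀ hω)
  have hB1 : 1 ≤ B :=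
    one_le_mul_of_one_le_of_one_le (one_le_mul_of_one_le_of_one_le
      (one_le_mul_of_one_le_of_one_le (by norm_num) hC0) (one_le_pow₀ hD1)) hSω
  set thr := fun s : ℕ => (h : ℝ) * (1 / B) ^ s * (1 / θ) ^ s with hthr
  set heavy := fun (I : Finset (Fin n)) (a : Fin n → Fin Q) => thr I.card ≤ patMass tot I a
    with hheavy
  set hm := fun I : Finset (Fin n) => ∑ a ∈ univ.filter (heavy I), tot a with hhm
  set q : ℝ := 1 / (D : ℝ) with hq
  have hq0 : 0 < q := by positivity
  have hq1 : q ≤ 1 := by rw [hq, div_le_one (by positivity)]; exact hD1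
  -- the largest size with enough heavy mass
  have hne : (univ.filter fun I : Finset (Fin n) => (h : ℝ) * q ^ I.card ≤ hm I).Nonempty := by
    refine ⟨∅, mem_filter.2 ⟨mem_univ _, ?_⟩⟩
    rw [card_empty, pow_zero, mul_one, hhm]
    simp only
    rw [filter_true_of_mem, htot1]
    intro a _
    simp [hheavy, hthr, patMass, agree, htot1]
  obtain ⟨I, hIm, hmax⟩ := exists_max_image _ (fun I : Finset (Fin n) => I.card) hne
  have hImass : (h : ℝ) * q ^ I.card ≤ hm I := (mem_filter.1 hIm).2
  have hIM : I.card ≤ M := ((card_le_univ I).trans_eq (Fintype.card_fin n)).trans (by omega)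
  -- keep the tuples heavy on `I` and light on every larger pattern
  set keep := fun a => heavy I a ∧ ∀ J : Finset (Fin n), I.card < J.card → ¬ heavy J a with hkeep
  set m := fun j a => if keep a then μ j a else 0 with hm_def
  set mt := fun a => ∑ j, m j a with hmt
  have hm0 : ∀ j a, 0 ≤ m j a := fun j a => by
    simp only [hm_def]; split_ifs <;> [exact hμ0 j a; exact le_rfl]
  have hmle : ∀ j a, m j a ≤ μ j a := fun j a => by
    simp only [hm_def]; split_ifs <;> [exact le_rfl; exact hμ0 j a]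
  have hmt_eq : ∀ a, mt a = if keep a then tot a else 0 := fun a => by
    simp only [hmt, hm_def, htot]; split_ifs <;> simp
  have hmt0 : ∀ a, 0 ≤ mt a := fun a => sum_nonneg fun j _ => hm0 j a
  have hmtle : ∀ a, mt a ≤ tot a := fun a => sum_le_sum fun j _ => hmle j a
  -- the mass kept
  have hkept : (h : ℝ) * q ^ I.card / 2 ≤ ∑ a, mt a := by
    set big := univ.filter fun J : Finset (Fin n) => I.card < J.card with hbig
    have hsplit : hm I ≤ ∑ a, mt a + ∑ J ∈ big, hm J := by
      have h1 : ∀ a, (if heavy I a then tot a else 0)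
          ≤ mt a + ∑ J ∈ big, if heavy J a then tot a else 0 := by
        intro a
        have hs : 0 ≤ ∑ J ∈ big, if heavy J a then tot a else 0 :=
          sum_nonneg fun J _ => by split_ifs <;> [exact htot0 a; exact le_rfl]
        by_cases ha : heavy I a
        · rw [if_pos ha]
          by_cases hk : keep a
          · rw [hmt_eq, if_pos hk]; linarith
          · simp only [hkeep, ha, true_and, not_forall, not_not] at hk
            obtain ⟨J, hJ, hJh⟩ := hk
            have := single_le_sum (f := fun J => if heavy J a then tot a else 0)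
              (fun J _ => by split_ifs <;> [exact htot0 a; exact le_rfl])
              (mem_filter.2 ⟨mem_univ J, hJ⟩ : J ∈ big)
            rw [if_pos hJh] at this
            linarith [hmt0 a]
        · rw [if_neg ha]; linarith [hmt0 a]
      calc hm I = ∑ a, (if heavy I a then tot a else 0) := sum_filter _ _
        _ ≤ ∑ a, (mt a + ∑ J ∈ big, if heavy J a then tot a else 0) :=
            sum_le_sum fun a _ => h1 a
        _ = ∑ a, mt a + ∑ J ∈ big, ∑ a, if heavy J a then tot a else 0 := by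
            rw [sum_add_distrib]; congr 1; exact sum_comm
        _ = ∑ a, mt a + ∑ J ∈ big, hm J := by
            congr 1; exact sum_congr rfl fun J _ => (sum_filter _ _).symm
    have hlost : ∑ J ∈ big, hm J ≤ (2 : ℝ) ^ n * ((h : ℝ) * q ^ (I.card + 1)) := by
      refine (sum_le_card_nsmul _ _ ((h : ℝ) * q ^ (I.card + 1)) fun J hJ => ?_).trans ?_
      · have hJlt := (mem_filter.1 hJ).2
        have hnot : ¬ (h : ℝ) * q ^ J.card ≤ hm J := fun h' =>
          absurd (hmax J (mem_filter.2 ⟨mem_univ _, h'⟩)) (not_le.2 hJlt)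
        exact (le_of_lt (not_le.1 hnot)).trans (mul_le_mul_of_nonneg_left
          (pow_le_pow_of_le_one hq0.le hq1 hJlt) (Nat.cast_nonneg h))
      · rw [nsmul_eq_mul]
        refine mul_le_mul_of_nonneg_right ?_ (by positivity)
        have := card_le_univ big
        rw [Fintype.card_finset, Fintype.card_fin] at this
        exact_mod_cast this
    have hqn : (2 : ℝ) ^ n * q ≤ 1 / 2 := by
      rw [hq, hD]
      push_cast
      rw [mul_one_div, div_le_div_iff₀ (by positivity) two_pos, one_mul, ← pow_succ]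
      exact pow_le_pow_right₀ one_le_two (by omega)
    have : (2 : ℝ) ^ n * ((h : ℝ) * q ^ (I.card + 1)) ≤ (h : ℝ) * q ^ I.card / 2 := by
      calc (2 : ℝ) ^ n * ((h : ℝ) * q ^ (I.card + 1))
          = ((h : ℝ) * q ^ I.card) * ((2 : ℝ) ^ n * q) := by ring
        _ ≤ ((h : ℝ) * q ^ I.card) * (1 / 2) := mul_le_mul_of_nonneg_left hqn (by positivity)
        _ = _ := by ring
    linarith
  have hlightm : ∀ J : Finset (Fin n), I.card < J.card → ∀ a,
      patMass mt J a ≤ (h : ℝ) * (1 / B) ^ (I.card + 1) * (1 / θ) ^ J.card := by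
    intro J hJ a
    have hnn : 0 ≤ (h : ℝ) * (1 / B) ^ (I.card + 1) * (1 / θ) ^ J.card := by positivity
    by_cases hz : ∃ a' ∈ agree J a, keep a'
    · obtain ⟨a', ha', hk⟩ := hz
      have he : agree J a' = agree J a := by
        have h' := (mem_filter.1 ha').2
        ext c
        simp only [agree, mem_filter, mem_univ, true_and]
        exact ⟨fun hc p hp => (hc p hp).trans (h' p hp),
          fun hc p hp => (hc p hp).trans (h' p hp).symm⟩
      have := not_le.1 (hk.2 J hJ)
      calc patMass mt J a ≤ patMass tot J a := sum_le_sum fun c _ => hmtle c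
        _ = patMass tot J a' := by rw [patMass, patMass, he]
        _ ≤ thr J.card := this.le
        _ ≤ _ := by
            refine mul_le_mul_of_nonneg_right (mul_le_mul_of_nonneg_left ?_ (Nat.cast_nonneg h))
              (by positivity)
            exact pow_le_pow_of_le_one (by positivity) ((div_le_one (by positivity)).2 hB1) hJ
    · push Not at hz
      rw [patMass, sum_eq_zero fun c hc => by rw [hmt_eq, if_neg (hz c hc)]]
      exact hnn
  refine ⟨I, ?_⟩
  set X := ∑ a, ∑ b ∈ agree I a, mt a * mt b with hX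
  set Y := ∑ k, ∑ b, m k b *
    ∑ a ∈ (agree I b).filter (fun a => ¬ Free (L k) (img a ∪ img b)), mt a with hY
  set G := ∑ j, ∑ k, ∑ a, ∑ b ∈ univ.filter (fun b =>
    (∀ p ∈ I, b p = a p) ∧ Free (L j) (img a ∪ img b) ∧ Free (L k) (img a ∪ img b)),
      μ j a * μ k b with hG
  have hXGY : X ≤ G + 2 * Y := split_pairs I L μ m hm0 hmle
  have hYle : Y ≤ (h : ℝ) * ((C₀ : ℝ) * (S * ω ^ M) *
      ((h : ℝ) * (1 / B) ^ (I.card + 1)) * (1 / θ) ^ I.card) := by
    have hc : ((C₀ : ℕ) : ℝ) = (4 * ((M : ℝ) + 1)) ^ M := by simp [hC₀]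
    calc Y ≤ ∑ k, ∑ b, μ k b * ((C₀ : ℝ) * (S * ω ^ M) *
          ((h : ℝ) * (1 / B) ^ (I.card + 1)) * (1 / θ) ^ I.card) := by
          refine sum_le_sum fun k _ => sum_le_sum fun b _ => ?_
          by_cases hb : μ k b = 0
          · have : m k b = 0 := le_antisymm (hb ▸ hmle k b) (hm0 k b)
            simp [this, hb]
          · refine mul_le_mul (hmle k b) ?_ (sum_nonneg fun a _ => hmt0 a) (hμ0 k b)
            rw [hc]
            exact blocked_le (L k) (hL k).1 (hL k).2 hn hθ hω hPω (by linarith) (by positivity) I b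
              ((hμ k).2.2 b hb) mt hmt0 hlightm
      _ = _ := by simp [← sum_mul, fun k => (hμ k).2.1]
  have hXge : ((h : ℝ) * q ^ I.card / 2) ^ 2 * thr I.card ≤ (h : ℝ) * X := by
    refine (mul_le_mul_of_nonneg_right (pow_le_pow_left₀ (by positivity) hkept 2)
      (by positivity)).trans ?_
    rw [← htot1]
    refine collide_ge I tot mt _ (by positivity) hmt0 hmtle fun a ha => ?_
    rw [hmt_eq] at ha
    exact (of_not_not fun hk => ha (if_neg hk) : keep a).1
  -- arithmetic
  set i := I.card with hi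
  set Bi := (1 / B) ^ i with hBi
  set Ti := (1 / θ) ^ i with hTi
  have hTθ : θ ^ i * Ti = 1 := by rw [hTi, ← mul_pow, mul_one_div_cancel hθ.ne', one_pow]
  have hh0 : (0 : ℝ) < h := Nat.cast_pos.2 hh
  have hX' : (h : ℝ) ^ 2 * (q ^ i) ^ 2 / 4 * (Bi * Ti) ≤ X := by
    refine le_of_mul_le_mul_left (le_trans (le_of_eq ?_) hXge) hh0
    simp only [hthr, ← hBi, ← hTi]
    ring
  have hY' : 2 * Y ≤ (h : ℝ) ^ 2 * (q ^ i) ^ 2 / 8 * (Bi * Ti) := by
    have hkey : 16 * ((C₀ : ℝ) * (S * ω ^ M)) * (1 / B) ≤ (q ^ i) ^ 2 := by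
      have e : 16 * ((C₀ : ℝ) * (S * ω ^ M)) * (1 / B) = q ^ (2 * M) := by
        rw [hB, hq, div_pow, one_pow]
        field_simp
      rw [e, ← pow_mul, mul_comm i 2]
      exact pow_le_pow_of_le_one hq0.le hq1 (by omega)
    calc 2 * Y ≤ 2 * ((h : ℝ) * ((C₀ : ℝ) * (S * ω ^ M) *
          ((h : ℝ) * (1 / B) ^ (i + 1)) * Ti)) := by linarith
      _ = (h : ℝ) ^ 2 / 8 * (Bi * Ti) * (16 * ((C₀ : ℝ) * (S * ω ^ M)) * (1 / B)) := by
          rw [pow_succ, ← hBi]; ring
      _ ≤ (h : ℝ) ^ 2 / 8 * (Bi * Ti) * (q ^ i) ^ 2 :=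
          mul_le_mul_of_nonneg_left hkey (by positivity)
      _ = _ := by ring
  have hG' : (h : ℝ) ^ 2 * (q ^ i) ^ 2 / 8 * (Bi * Ti) ≤ G := by linarith
  have hlow : 1 / ((((16 * C₀ * D ^ (2 * M) : ℕ) : ℝ) * S * ω) ^ ((M + 1) * M + 1))
      ≤ (q ^ i) ^ 2 / 8 * Bi := by
    set K := ((16 * C₀ * D ^ (2 * M) : ℕ) : ℝ) * S * ω with hK
    have hC1 : (1 : ℝ) ≤ ((16 * C₀ * D ^ (2 * M) : ℕ) : ℝ) := by
      exact_mod_cast Nat.one_le_iff_ne_zero.2 (by positivity : 16 * C₀ * D ^ (2 * M) ≠ 0)
    have hK1 : 1 ≤ K :=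
      one_le_mul_of_one_le_of_one_le (one_le_mul_of_one_le_of_one_le hC1 hS) hω
    have hBK : B ≤ K ^ (M + 1) := by
      calc B = ((16 * C₀ * D ^ (2 * M) : ℕ) : ℝ) * S * ω ^ M := by rw [hB]; push_cast; ring
        _ ≤ K * K ^ M := by
            refine mul_le_mul ?_ (pow_le_pow_left₀ (by linarith) ?_ M) (by positivity) (by positivity)
            · exact le_mul_of_one_le_right (by positivity) hω
            · exact le_mul_of_one_le_left (by linarith) (one_le_mul_of_one_le_of_one_le hC1 hS)
        _ = K ^ (M + 1) := (pow_succ' K M).symm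
    have h1 : 1 / K ≤ (q ^ i) ^ 2 / 8 := by
      have hq2 : q ^ (2 * M) ≤ (q ^ i) ^ 2 := by
        rw [← pow_mul, mul_comm i 2]; exact pow_le_pow_of_le_one hq0.le hq1 (by omega)
      have hK8 : 8 * (D : ℝ) ^ (2 * M) ≤ K := by
        calc 8 * (D : ℝ) ^ (2 * M) ≤ 16 * C₀ * (D : ℝ) ^ (2 * M) := by
              refine mul_le_mul_of_nonneg_right ?_ (by positivity); linarith
          _ = ((16 * C₀ * D ^ (2 * M) : ℕ) : ℝ) := by push_cast; ring
          _ ≤ K := (le_mul_of_one_le_right (by positivity) hS).trans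
              (le_mul_of_one_le_right (by positivity) hω)
      calc 1 / K ≤ 1 / (8 * (D : ℝ) ^ (2 * M)) := one_div_le_one_div_of_le (by positivity) hK8
        _ = q ^ (2 * M) / 8 := by rw [hq, div_pow, one_pow]; ring
        _ ≤ _ := by linarith
    have h2 : 1 / K ^ ((M + 1) * M) ≤ Bi := by
      rw [hBi, div_pow, one_pow]
      refine one_div_le_one_div_of_le (by positivity) ?_
      calc B ^ i ≤ B ^ M := pow_le_pow_right₀ hB1 hIM
        _ ≤ (K ^ (M + 1)) ^ M := pow_le_pow_left₀ (by linarith) hBK M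
        _ = K ^ ((M + 1) * M) := (pow_mul _ _ _).symm
    calc 1 / K ^ ((M + 1) * M + 1) = (1 / K) * (1 / K ^ ((M + 1) * M)) := by
          rw [pow_succ, one_div_mul_one_div]; ring
      _ ≤ _ := mul_le_mul h1 h2 (by positivity) (by positivity)
  calc 1 / ((((16 * C₀ * D ^ (2 * M) : ℕ) : ℝ) * S * ω) ^ ((M + 1) * M + 1)) * (h : ℝ) ^ 2
      ≤ (q ^ i) ^ 2 / 8 * Bi * (h : ℝ) ^ 2 := mul_le_mul_of_nonneg_right hlow (by positivity)
    _ = θ ^ i * ((h : ℝ) ^ 2 * (q ^ i) ^ 2 / 8 * (Bi * Ti)) := by
        linear_combination (-((h : ℝ) ^ 2 * (q ^ i) ^ 2 / 8 * Bi)) * hTθ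
    _ ≤ θ ^ i * G := mul_le_mul_of_nonneg_left hG' (by positivity)

end Vale.Agent.P126.Neg
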