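import Vale.Agent.P126.Neg.Defs

/-!
Independent samples: a few of them locate the points of large probability, finite families have
small Rademacher averages, and small averages give short signed averages of atoms.
-/

namespace Vale.Agent.P126.Neg

open scoped Classical
open Finset

section iid

variable {α : Type*} [Fintype α]

theorem sum_cons (r : ℕ) (g : (Fin (r + 1) → α) → ℝ) :
    ∑ s, g s = ∑ a, ∑ s : Fin r → α, g (Fin.cons a s) := by
  rw [← (Fin.consEquiv fun _ : Fin (r + 1) => α).sum_comp, Fintype.sum_prod_type]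
  rfl

theorem sum_iid {π : α → ℝ} (h1 : ∑ a, π a = 1) (r : ℕ) :
    ∑ s : Fin r → α, ∏ t, π (s t) = 1 := by
  induction r with
  | zero => simp
  | succ r ih => simp [sum_cons, Fin.prod_univ_succ, ← Finset.mul_sum, ih, h1]

theorem sum_iid_linear {π : α → ℝ} (h1 : ∑ a, π a = 1) (f : α → ℝ) (r : ℕ) :
    ∑ s : Fin r → α, (∏ t, π (s t)) * ∑ t, f (s t) = r * ∑ a, π a * f a := by
  induction r with
  | zero => simp
  | succ r ih =>
    rw [sum_cons]
    simp only [Fin.prod_univ_succ, Fin.sum_univ_succ, Fin.cons_zero, Fin.cons_succ, mul_add,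
      Finset.sum_add_distrib, mul_assoc, ← Finset.mul_sum, ← Finset.sum_mul, ih, sum_iid h1, h1]
    push_cast
    ring_nf

theorem sum_iid_sq {π : α → ℝ} (h1 : ∑ a, π a = 1) (f : α → ℝ) (hf : ∑ a, π a * f a = 0)
    (r : ℕ) : ∑ s : Fin r → α, (∏ t, π (s t)) * (∑ t, f (s t)) ^ 2 = r * ∑ a, π a * f a ^ 2 := by
  induction r with
  | zero => simp
  | succ r ih =>
    rw [sum_cons]
    have h : ∀ (a : α) (s : Fin r → α),
        (∏ t, π ((Fin.cons a s : Fin (r + 1) → α) t)) *
            (∑ t, f ((Fin.cons a s : Fin (r + 1) → α) t)) ^ 2 =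
          π a * f a ^ 2 * ∏ t, π (s t) + 2 * (π a * f a) * ((∏ t, π (s t)) * ∑ t, f (s t)) +
            π a * ((∏ t, π (s t)) * (∑ t, f (s t)) ^ 2) := by
      intro a s
      simp only [Fin.prod_univ_succ, Fin.sum_univ_succ, Fin.cons_zero, Fin.cons_succ]
      ring
    simp only [h, Finset.sum_add_distrib, ← Finset.mul_sum, sum_iid h1, sum_iid_linear h1, hf,
      ih, ← Finset.sum_mul, h1]
    push_cast
    ring

/-- Some outcome is no larger than the mean. -/
theorem exists_le_mean {π : α → ℝ} (h0 : ∀ a, 0 ≤ π a) (h1 : ∑ a, π a = 1) (g : α → ℝ) {m : ℝ}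
    (hm : ∑ a, π a * g a ≤ m) : ∃ a, g a ≤ m := by
  by_contra h
  simp only [not_exists, not_le] at h
  have hz : ∃ a ∈ (univ : Finset α), π a ≠ 0 := by
    by_contra hz
    simp only [not_exists, not_and, not_not] at hz
    rw [Finset.sum_eq_zero hz] at h1
    exact one_ne_zero h1.symm
  obtain ⟨a, -, ha⟩ := hz
  have : ∑ x, π x * m < ∑ x, π x * g x :=
    Finset.sum_lt_sum (fun x _ => mul_le_mul_of_nonneg_left (h x).le (h0 x))
      ⟨a, mem_univ a, mul_lt_mul_of_pos_left (h a) (lt_of_le_of_ne (h0 a) ha.symm)⟩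
  rw [← Finset.sum_mul, h1, one_mul] at this
  linarith

end iid

/-- A few samples locate the points of large and of small probability. -/
theorem sampleStmt : SampleStmt := by
  intro α _ K0 κ b r G π ρ hκ hG h0 h1 hρ hr
  set p : Fin b → ℝ := fun k => ∑ a ∈ univ.filter (fun a => G a k), π a with hp
  set f : Fin b → α → ℝ := fun k a => (if G a k then 1 else 0) - p k with hf
  have hp01 : ∀ k, 0 ≤ p k ∧ p k ≤ 1 := fun k =>
    ⟨Finset.sum_nonneg fun a _ => h0 a,
      (Finset.sum_le_univ_sum_of_nonneg h0).trans h1.le⟩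
  have hf0 : ∀ k, ∑ a, π a * f k a = 0 := fun k => by
    simp only [hf, mul_sub, Finset.sum_sub_distrib, ← Finset.sum_mul, h1, mul_ite, mul_one,
      mul_zero, ← Finset.sum_filter, hp, one_mul, sub_self]
  have hvar : ∀ k, ∑ a, π a * f k a ^ 2 ≤ 1 := fun k => by
    refine le_trans (Finset.sum_le_sum fun a _ => mul_le_mul_of_nonneg_left ?_ (h0 a))
      (by rw [← Finset.sum_mul, h1, one_mul])
    have := hp01 k
    simp only [hf]
    split_ifs <;> nlinarith
  have hmean : ∑ s : Fin r → α, (∏ t, π (s t)) * ∑ k, (∑ t, f k (s t)) ^ 2 ≤ (b : ℝ) * r := by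
    simp only [Finset.mul_sum]
    rw [Finset.sum_comm]
    calc ∑ k, ∑ s : Fin r → α, (∏ t, π (s t)) * (∑ t, f k (s t)) ^ 2
        ≤ ∑ _k : Fin b, (r : ℝ) := Finset.sum_le_sum fun k _ => by
          rw [sum_iid_sq h1 (f k) (hf0 k)]
          exact mul_le_of_le_one_right (Nat.cast_nonneg r) (hvar k)
      _ = _ := by simp
  obtain ⟨s, hs⟩ := exists_le_mean (fun s => Finset.prod_nonneg fun t _ => h0 (s t))
    (sum_iid h1 r) (fun s : Fin r → α => ∑ k, (∑ t, f k (s t)) ^ 2) hmean
  refine ⟨fun t => κ (s t), fun t => hκ _, ?_⟩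
  simp only [hG]
  have hcount : ∀ k, ((univ.filter fun t => G (s t) k).card : ℝ) = ∑ t, f k (s t) + r * p k := by
    intro k
    simp [hf, Finset.sum_sub_distrib]
  have key : ∀ U : Finset (Fin b), (∀ k ∈ U, (ρ * r / 4) ^ 2 ≤ (∑ t, f k (s t)) ^ 2) →
      (U.card : ℝ) * (ρ * r / 4) ^ 2 ≤ b * r := by
    intro U hU
    refine le_trans ?_ hs
    rw [← nsmul_eq_mul]
    exact (Finset.card_nsmul_le_sum U (fun k => (∑ t, f k (s t)) ^ 2) _ hU).trans
      (Finset.sum_le_univ_sum_of_nonneg fun k => sq_nonneg _)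
  have hrR : (0 : ℝ) < r := Nat.cast_pos.2 hr
  have conv : ∀ U : Finset (Fin b), (U.card : ℝ) * (ρ * r / 4) ^ 2 ≤ b * r →
      (U.card : ℝ) ≤ 16 * b / (r * ρ ^ 2) := by
    intro U h
    rw [le_div_iff₀ (by positivity)]
    refine le_of_mul_le_mul_right ?_ hrR
    nlinarith
  refine le_trans (add_le_add (conv _ (key _ ?_)) (conv _ (key _ ?_))) (le_of_eq (by ring))
  · intro k hk
    obtain ⟨hl, hc⟩ := (Finset.mem_filter.1 hk).2
    rw [hcount k] at hc
    have hl' : ρ * r ≤ p k * r := mul_le_mul_of_nonneg_right hl hrR.le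
    have h : ∑ t, f k (s t) ≤ -(ρ * r / 4) := by linarith [mul_pos hρ hrR]
    rw [sq_le_sq, abs_of_pos (by positivity)]
    exact le_abs.2 (Or.inr (by linarith))
  · intro k hk
    obtain ⟨hl, hc⟩ := (Finset.mem_filter.1 hk).2
    rw [hcount k] at hc
    have hl' : p k * r ≤ ρ / 4 * r := mul_le_mul_of_nonneg_right hl hrR.le
    have h : ρ * r / 4 ≤ ∑ t, f k (s t) := by linarith [mul_pos hρ hrR]
    rw [sq_le_sq, abs_of_pos (by positivity)]
    exact le_abs.2 (Or.inl h)

/-- The sum over the signs of the exponential of a signed sum. -/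
theorem sum_exp_signs {d : ℕ} (A : Finset (Fin d)) (u : ℝ) :
    ∑ σ : Fin d → Bool, Real.exp (u * ∑ k ∈ A, sgn (σ k)) ≤
      2 ^ d * Real.exp (d * u ^ 2 / 2) := by
  have h : ∀ σ : Fin d → Bool, Real.exp (u * ∑ k ∈ A, sgn (σ k)) =
      ∏ k, Real.exp (if k ∈ A then u * sgn (σ k) else 0) := fun σ => by
    rw [← Real.exp_sum, Finset.sum_ite_mem, Finset.univ_inter, Finset.mul_sum]
  simp only [h]
  rw [← Fintype.prod_sum fun k s => Real.exp (if k ∈ A then u * sgn s else 0)]
  calc ∏ k : Fin d, ∑ s : Bool, Real.exp (if k ∈ A then u * sgn s else 0)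
      ≤ ∏ _k : Fin d, (2 * Real.exp (u ^ 2 / 2)) :=
        Finset.prod_le_prod (fun k _ => Finset.sum_nonneg fun s _ => (Real.exp_pos _).le)
          fun k _ => by
            rw [Fintype.sum_bool]
            by_cases hk : k ∈ A
            · simp only [hk, if_true, sgn, mul_one, mul_neg, Bool.false_eq_true, if_false]
              have := Real.cosh_le_exp_half_sq u
              rw [Real.cosh_eq] at this
              linarith
            · simp only [hk, if_false, Real.exp_zero]
              have := Real.one_le_exp (show (0 : ℝ) ≤ u ^ 2 / 2 by positivity)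
              linarith
    _ = _ := by
        rw [Finset.prod_const, Finset.card_univ, Fintype.card_fin, mul_pow, ← Real.exp_nat_mul]
        ring_nf

/-- The expected largest signed sum over a family of sets. -/
theorem radStmt : RadStmt := by
  intro d fam t pick ht hpick
  have hne : fam.Nonempty := ⟨_, hpick fun _ => true⟩
  have hfam : (0 : ℝ) < 2 * fam.card := by
    have := Nat.cast_pos (α := ℝ).2 (Finset.card_pos.2 hne)
    linarith
  set L := Real.log (2 * (fam.card : ℝ)) + d * t ^ 2 / 2 with hL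
  have hexp : ∑ σ, Real.exp (t * |∑ k ∈ pick σ, sgn (σ k)|) ≤ 2 ^ d * Real.exp L := by
    calc ∑ σ, Real.exp (t * |∑ k ∈ pick σ, sgn (σ k)|)
        ≤ ∑ σ : Fin d → Bool, ∑ A ∈ fam, (Real.exp (t * ∑ k ∈ A, sgn (σ k)) +
            Real.exp (-t * ∑ k ∈ A, sgn (σ k))) := Finset.sum_le_sum fun σ _ => by
          refine le_trans ?_ (Finset.single_le_sum (fun A _ => add_nonneg (Real.exp_pos _).le
            (Real.exp_pos _).le) (hpick σ))
          rcases abs_choice (∑ k ∈ pick σ, sgn (σ k)) with h | h <;> rw [h]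
          · exact le_add_of_nonneg_right (Real.exp_pos _).le
          · rw [mul_neg, ← neg_mul]
            exact le_add_of_nonneg_left (Real.exp_pos _).le
      _ ≤ ∑ _A ∈ fam, (2 ^ d * Real.exp (d * t ^ 2 / 2) + 2 ^ d * Real.exp (d * t ^ 2 / 2)) := by
          rw [Finset.sum_comm]
          refine Finset.sum_le_sum fun A _ => ?_
          rw [Finset.sum_add_distrib]
          have h := sum_exp_signs A (-t)
          rw [neg_sq] at h
          exact add_le_add (sum_exp_signs A t) h
      _ = _ := by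
          rw [Finset.sum_const, nsmul_eq_mul, hL, Real.exp_add, Real.exp_log hfam]
          ring
  have hsum : ∑ σ : Fin d → Bool, (t * |∑ k ∈ pick σ, sgn (σ k)| - L + 1) ≤ 2 ^ d := by
    calc _ ≤ ∑ σ, Real.exp (t * |∑ k ∈ pick σ, sgn (σ k)| - L) :=
          Finset.sum_le_sum fun σ _ => Real.add_one_le_exp _
      _ ≤ _ := by
          simp only [Real.exp_sub, ← Finset.sum_div]
          rwa [div_le_iff₀ (Real.exp_pos L)]
  simp only [Finset.sum_add_distrib, Finset.sum_sub_distrib, ← Finset.mul_sum, Finset.sum_const,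
    Finset.card_univ, Fintype.card_fun, Fintype.card_fin, Fintype.card_bool, nsmul_eq_mul,
    mul_one, Nat.cast_pow, Nat.cast_ofNat] at hsum
  have e : (2 : ℝ) ^ d * (Real.log (2 * (fam.card : ℝ)) / t + d * t / 2) = 2 ^ d * L / t := by
    rw [hL]; field_simp
  rw [e, le_div_iff₀ ht]
  linarith

/-- Small Rademacher averages make every point of the cross-polytope a short signed average. -/
theorem approxPointStmt : ApproxPointStmt := by
  intro X ι _ _ _ F d ε hd hrad y hy
  obtain ⟨x₀⟩ := (inferInstance : Nonempty X)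
  rcases isEmpty_or_nonempty ι with hι | hι
  · exact ⟨fun _ => (true, x₀), fun i => isEmptyElim i⟩
  set π : Bool × X → ℝ := fun z => max (sgn z.1 * y z.2) 0 +
    (if z.2 = x₀ then (1 - ∑ x, |y x|) / 2 else 0) with hπ
  have h0 : ∀ z, 0 ≤ π z := fun z =>
    add_nonneg (le_max_right _ _) (by split_ifs <;> linarith)
  have habs : ∀ v : ℝ, max v 0 + max (-v) 0 = |v| := fun v => by
    rcases le_total 0 v with h | h <;> simp [h, abs_of_nonneg, abs_of_nonpos]
  have hdiff : ∀ v : ℝ, max v 0 - max (-v) 0 = v := fun v => by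
    rcases le_total 0 v with h | h <;> simp [h]
  have h1 : ∑ z, π z = 1 := by
    rw [Fintype.sum_prod_type_right]
    simp only [hπ, Fintype.sum_bool, sgn, if_true, Bool.false_eq_true, if_false, one_mul,
      neg_one_mul, habs, Finset.sum_add_distrib, Finset.sum_ite_eq',
      Finset.mem_univ]
    ring
  set g : ι → Bool × X → ℝ := fun i z => sgn z.1 * F i z.2 with hg
  have hmean : ∀ i, ∑ z, π z * g i z = ∑ x, y x * F i x := by
    intro i
    rw [Fintype.sum_prod_type_right]
    refine Finset.sum_congr rfl fun x _ => ?_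
    simp only [hπ, hg, Fintype.sum_bool, sgn, if_true, Bool.false_eq_true, if_false, one_mul,
      neg_one_mul]
    linear_combination F i x * hdiff (y x)
  set w : (Fin d → Bool × X) → ℝ := fun s => ∏ k, π (s k) with hw
  have hw0 : ∀ s, 0 ≤ w s := fun s => Finset.prod_nonneg fun k _ => h0 _
  have hw1 : ∑ s, w s = 1 := sum_iid h1 d
  choose im him using fun s : Fin d → ℝ × (Bool × X) =>
    Finite.exists_max fun i => |∑ k, (s k).1 * g i (s k).2|
  set R : (Fin d → Bool) → (Fin d → Bool × X) → ℝ := fun σ s =>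
    |∑ k, sgn (σ k) * g (im fun k => (sgn (σ k), s k)) (s k)| with hR
  have hRmax : ∀ σ s i, |∑ k, sgn (σ k) * g i (s k)| ≤ R σ s := fun σ s i =>
    him (fun k => (sgn (σ k), s k)) i
  have hRsum : ∀ s, ∑ σ, R σ s ≤ 2 ^ d * (ε * d) := by
    intro s
    set τ : (Fin d → Bool) → Fin d → Bool := fun σ k => σ k == (s k).1 with hτ
    have hinv : Function.Involutive τ := fun σ => funext fun k => by
      simp only [hτ]; cases σ k <;> cases (s k).1 <;> rfl
    refine le_trans (le_of_eq ?_) (hrad (fun k => (s k).2)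
      fun ρ => im fun k => (sgn (τ ρ k), s k))
    rw [← Equiv.sum_comp hinv.toPerm]
    refine Finset.sum_congr rfl fun σ _ => ?_
    simp only [hR, hg, Function.Involutive.coe_toPerm]
    refine congrArg _ (Finset.sum_congr rfl fun k _ => ?_)
    rw [← mul_assoc]
    refine congrArg (· * _) ?_
    simp only [hτ]
    cases σ k <;> cases (s k).1 <;> norm_num [sgn]
  by_contra hcon
  simp only [not_exists, not_forall, not_le] at hcon
  choose iw hiw using hcon
  set D : (Fin d → Bool × X) → (Fin d → Bool × X) → ℝ := fun s s' =>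
    |∑ k, (g (iw s) (s k) - g (iw s) (s' k))| with hD
  have hlow : ∀ s, 2 * ε * d < ∑ s', w s' * D s s' := by
    intro s
    have e : ∑ s', w s' * ∑ k, (g (iw s) (s k) - g (iw s) (s' k)) =
        ∑ k, g (iw s) (s k) - d * ∑ x, y x * F (iw s) x := by
      simp only [Finset.sum_sub_distrib, mul_sub]
      rw [← Finset.sum_mul, hw1, one_mul, sum_iid_linear h1 (g (iw s)) d, hmean]
    have h := hiw s
    have hd' : (0 : ℝ) < d := Nat.cast_pos.2 hd
    calc 2 * ε * d < |∑ x, y x * F (iw s) x - (∑ k, g (iw s) (s k)) / d| * d :=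
          mul_lt_mul_of_pos_right h hd'
      _ = |∑ s', w s' * ∑ k, (g (iw s) (s k) - g (iw s) (s' k))| := by
          rw [e, ← abs_of_pos hd', ← abs_mul, abs_of_pos hd', ← abs_neg]
          refine congrArg _ ?_
          field_simp
          ring
      _ ≤ _ := (Finset.abs_sum_le_sum_abs _ _).trans (le_of_eq (Finset.sum_congr rfl fun s' _ => by
          rw [abs_mul, abs_of_nonneg (hw0 s')]))
  have hbig : 2 * ε * d < ∑ p : (Fin d → Bool × X) × (Fin d → Bool × X),
      w p.1 * w p.2 * D p.1 p.2 := by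
    rw [Fintype.sum_prod_type]
    simp only [mul_assoc (w _), ← Finset.mul_sum]
    by_contra h
    obtain ⟨s, hs⟩ := exists_le_mean hw0 hw1 (fun s => ∑ s', w s' * D s s') (not_lt.1 h)
    exact absurd (hlow s) (not_lt.2 hs)
  -- symmetrization: for each sign pattern swap the two samples
  have hswap : ∀ σ : Fin d → Bool, ∑ p : (Fin d → Bool × X) × (Fin d → Bool × X),
      w p.1 * w p.2 * D p.1 p.2 ≤
        ∑ p : (Fin d → Bool × X) × (Fin d → Bool × X), w p.1 * w p.2 * (R σ p.1 + R σ p.2) := by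
    intro σ
    set Φ : ((Fin d → Bool × X) × (Fin d → Bool × X)) → (Fin d → Bool × X) × (Fin d → Bool × X) :=
      fun p => (fun k => if σ k then p.1 k else p.2 k, fun k => if σ k then p.2 k else p.1 k)
      with hΦ
    have hinv : Function.Involutive Φ := fun p => by
      refine Prod.ext (funext fun k => ?_) (funext fun k => ?_) <;>
        simp only [hΦ] <;> cases σ k <;> rfl
    rw [← Equiv.sum_comp hinv.toPerm]
    refine Finset.sum_le_sum fun p _ => ?_
    simp only [Function.Involutive.coe_toPerm]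
    have hww : w (Φ p).1 * w (Φ p).2 = w p.1 * w p.2 := by
      simp only [hw, ← Finset.prod_mul_distrib]
      refine Finset.prod_congr rfl fun k _ => ?_
      simp only [hΦ]
      cases σ k <;> simp [mul_comm]
    rw [hww]
    refine mul_le_mul_of_nonneg_left ?_ (mul_nonneg (hw0 _) (hw0 _))
    set i := iw (Φ p).1
    have e : ∑ k, (g i ((Φ p).1 k) - g i ((Φ p).2 k)) =
        ∑ k, sgn (σ k) * g i (p.1 k) - ∑ k, sgn (σ k) * g i (p.2 k) := by
      rw [← Finset.sum_sub_distrib]
      refine Finset.sum_congr rfl fun k _ => ?_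
      simp only [hΦ]
      cases σ k <;> simp [sgn, sub_eq_add_neg, add_comm]
    simp only [hD]
    rw [e]
    exact (abs_sub _ _).trans (add_le_add (hRmax σ p.1 i) (hRmax σ p.2 i))
  have htot : ∑ σ : Fin d → Bool, ∑ p : (Fin d → Bool × X) × (Fin d → Bool × X),
      w p.1 * w p.2 * (R σ p.1 + R σ p.2) ≤ 2 ^ d * (2 * ε * d) := by
    rw [Finset.sum_comm]
    calc _ ≤ ∑ p : (Fin d → Bool × X) × (Fin d → Bool × X), w p.1 * w p.2 *
          (2 ^ d * (2 * ε * d)) := Finset.sum_le_sum fun p _ => by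
          rw [← Finset.mul_sum, Finset.sum_add_distrib]
          exact mul_le_mul_of_nonneg_left (by linarith [hRsum p.1, hRsum p.2])
            (mul_nonneg (hw0 _) (hw0 _))
      _ = _ := by
          rw [← Finset.sum_mul, Fintype.sum_prod_type]
          simp only [← Finset.mul_sum, hw1, mul_one, one_mul]
  have := Finset.sum_le_sum (s := (univ : Finset (Fin d → Bool))) fun σ _ => hswap σ
  rw [Finset.sum_const, Finset.card_univ, Fintype.card_fun, Fintype.card_fin, Fintype.card_bool,
    nsmul_eq_mul, Nat.cast_pow, Nat.cast_ofNat] at this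
  have h2 : (2 : ℝ) ^ d * (2 * ε * d) < 2 ^ d * (2 * ε * d) :=
    lt_of_lt_of_le (mul_lt_mul_of_pos_left hbig (by positivity)) (this.trans htot)
  exact lt_irrefl _ h2

end Vale.Agent.P126.Neg
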